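import Vale.Agent.P165.Defs
import Vale.Agent.P151G.Bridge

/-! Proof-level definitions. -/

namespace Vale.Agent.P165

open Finset Vale.Agent.P151 Vale.Agent.P151G

variable {V : Type*} [DecidableEq V] (G : SimpleGraph V) [G.LocallyFinite]

/-- the quadratic form of the adjacency operator is bounded by `l` -/
def Spec (l : ℝ) : Prop := ∀ (S : Finset V) (f : V → ℝ),
  ∑ x ∈ S, ∑ y ∈ G.neighborFinset x ∩ S, f x * f y ≤ l * ∑ x ∈ S, f x ^ 2

/-- number of walks of length `n` -/
noncomputable def cnt (n : ℕ) (x y : V) : ℝ := ((G.finsetWalkLength n x y).card : ℝ)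

/-- connection probability inside `S` -/
noncomputable def tau (p : ℝ) (S : Finset V) (o x : V) : ℝ :=
  Pr (eIn G S) (fun _ => p) fun ω => Conn ω o x

/-- expected number of boundary edges reached from `o` inside `S` -/
noncomputable def psi (p : ℝ) (S : Finset V) (o : V) : ℝ :=
  ∑ x ∈ S, tau G p S o x * ((G.neighborFinset x \ S).card : ℝ)

end Vale.Agent.P165
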