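import Vale.Agent.P165.Base

/-! Cheeger inequality. -/

namespace Vale.Agent.P165

open Finset

variable {V : Type*} [DecidableEq V] {G : SimpleGraph V} [G.LocallyFinite]

theorem cheeger_coarea_aux {κ : ℝ}
    (h : ∀ A : Finset V, κ * A.card ≤ ∑ x ∈ A, ((G.neighborFinset x \ A).card : ℝ))
    (n : ℕ) : ∀ (S : Finset V) (g : V → ℝ), S.card = n → (∀ x, 0 ≤ g x) →
    (∀ x, x ∉ S → g x = 0) →
    κ * ∑ x ∈ S, g x ≤ ∑ x ∈ S, ∑ y ∈ G.neighborFinset x, max (g x - g y) 0 := by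
  induction n with
  | zero =>
    intro S g hc _ _
    rw [card_eq_zero.mp hc]
    simp
  | succ n ih =>
    intro S g hc h0 hS
    have hne : S.Nonempty := card_pos.mp (by omega)
    obtain ⟨x0, hx0, hmin⟩ := exists_min_image S g hne
    set m := g x0 with hm
    have hm0 : 0 ≤ m := h0 x0
    let g' : V → ℝ := fun x => if x ∈ S then g x - m else 0
    have hg0 : ∀ x, 0 ≤ g' x := by
      intro x
      by_cases hx : x ∈ S
      · simp only [g', if_pos hx]; linarith [hmin x hx]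
      · simp only [g', if_neg hx]; exact le_rfl
    have hgx0 : g' x0 = 0 := by simp only [g', if_pos hx0]; linarith
    have hgS : ∀ x, x ∉ S.erase x0 → g' x = 0 := by
      intro x hx
      by_cases hxx : x = x0
      · rw [hxx]; exact hgx0
      · have : x ∉ S := fun hh => hx (mem_erase.mpr ⟨hxx, hh⟩)
        simp only [g', if_neg this]
    have hI := ih (S.erase x0) g' (by rw [card_erase_of_mem hx0]; omega) hg0 hgS
    have h1 : ∑ x ∈ S.erase x0, g' x = ∑ x ∈ S, g' x := sum_erase S hgx0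
    have h2 : ∑ x ∈ S, g x = ∑ x ∈ S, g' x + m * S.card := by
      rw [mul_comm, ← nsmul_eq_mul, ← sum_const, ← sum_add_distrib]
      refine sum_congr rfl fun x hx => ?_
      simp only [g', if_pos hx]; ring
    have h3 : ∑ x ∈ S.erase x0, ∑ y ∈ G.neighborFinset x, max (g' x - g' y) 0 ≤
        ∑ x ∈ S, ∑ y ∈ G.neighborFinset x, max (g' x - g' y) 0 :=
      sum_le_sum_of_subset_of_nonneg (erase_subset _ _)
        fun x _ _ => sum_nonneg fun y _ => le_max_right _ _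
    have h4 : ∀ x ∈ S, ∑ y ∈ G.neighborFinset x, max (g x - g y) 0 =
        ∑ y ∈ G.neighborFinset x, max (g' x - g' y) 0 +
          m * ((G.neighborFinset x \ S).card : ℝ) := by
      intro x hx
      have : m * ((G.neighborFinset x \ S).card : ℝ) =
          ∑ y ∈ G.neighborFinset x, if y ∈ S then 0 else m := by
        rw [sum_ite, sum_const_zero, zero_add, sum_const, nsmul_eq_mul, mul_comm, sdiff_eq_filter]
      rw [this, ← sum_add_distrib]
      refine sum_congr rfl fun y _ => ?_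
      by_cases hy : y ∈ S
      · simp only [g', if_pos hx, if_pos hy, add_zero]
        congr 1; ring
      · simp only [g', if_pos hx, if_neg hy, hS y hy, sub_zero]
        rw [max_eq_left (h0 x), max_eq_left (by linarith [hmin x hx])]; ring
    rw [sum_congr rfl h4, sum_add_distrib, ← mul_sum, h2]
    have h5 := mul_le_mul_of_nonneg_left (h S) hm0
    rw [h1] at hI
    nlinarith

theorem coarea {κ : ℝ}
    (h : ∀ A : Finset V, κ * A.card ≤ ∑ x ∈ A, ((G.neighborFinset x \ A).card : ℝ))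
    (S : Finset V) (g : V → ℝ) (h0 : ∀ x, 0 ≤ g x) (hS : ∀ x, x ∉ S → g x = 0) :
    κ * ∑ x ∈ S, g x ≤ ∑ x ∈ S, ∑ y ∈ G.neighborFinset x, max (g x - g y) 0 :=
  cheeger_coarea_aux h S.card S g rfl h0 hS

theorem cheeger_pt {Φ : ℝ} (hΦ : 0 ≤ Φ) (a b : ℝ) :
    Φ * max (a ^ 2 - b ^ 2) 0 ≤ (2 + Φ ^ 2 / 4) * a ^ 2 + (2 + Φ ^ 2 / 4) * b ^ 2 - 4 * (a * b) := by
  rcases le_total (a ^ 2 - b ^ 2) 0 with h | h
  · rw [max_eq_right h]
    nlinarith [sq_nonneg (a - b), sq_nonneg (Φ * a), sq_nonneg (Φ * b)]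
  · rw [max_eq_left h]
    nlinarith [sq_nonneg (4 * (a - b) - Φ * (a + b)), sq_nonneg (Φ * (a - b))]

theorem cheeger_swap {d : ℕ} (hd : ∀ v, G.degree v = d) (S : Finset V) (u : V → ℝ)
    (h0 : ∀ x, 0 ≤ u x) (hS : ∀ x, x ∉ S → u x = 0) :
    ∑ x ∈ S, ∑ y ∈ G.neighborFinset x, u y ≤ d * ∑ x ∈ S, u x := by
  have h1 : ∀ x ∈ S, ∑ y ∈ G.neighborFinset x, u y =
      ∑ y ∈ S, if x ∈ G.neighborFinset y then u y else 0 := by
    intro x _
    rw [← sum_filter]
    symm
    refine sum_subset (fun y hy => ?_) (fun y hy hy' => hS y fun hh => hy' ?_)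
    · have := (mem_filter.mp hy).2
      rw [SimpleGraph.mem_neighborFinset] at this ⊢
      exact this.symm
    · refine mem_filter.mpr ⟨hh, ?_⟩
      rw [SimpleGraph.mem_neighborFinset] at hy ⊢
      exact hy.symm
  rw [sum_congr rfl h1, sum_comm, mul_sum]
  refine sum_le_sum fun y _ => ?_
  rw [← sum_filter, sum_const, nsmul_eq_mul]
  refine mul_le_mul_of_nonneg_right ?_ (h0 y)
  rw [← hd y, ← SimpleGraph.card_neighborFinset_eq_degree]
  exact_mod_cast card_le_card fun x hx => (mem_filter.mp hx).2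

theorem cheeger {d : ℕ} (hd : ∀ v, G.degree v = d) {Φ : ℝ} (hΦ : 0 ≤ Φ)
    (h : ∀ A : Finset V, Φ * d * A.card ≤ ∑ x ∈ A, ((G.neighborFinset x \ A).card : ℝ)) :
    Spec G ((1 - Φ ^ 2 / 8) * d) := by
  intro S f
  let g : V → ℝ := fun x => if x ∈ S then |f x| else 0
  have hg0 : ∀ x, 0 ≤ g x := by
    intro x
    by_cases hx : x ∈ S
    · simp only [g, if_pos hx]; exact abs_nonneg _
    · simp only [g, if_neg hx]; exact le_rfl
  have hgS : ∀ x, x ∉ S → g x ^ 2 = 0 := by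
    intro x hx
    simp only [g, if_neg hx]; norm_num
  have hN : ∑ x ∈ S, f x ^ 2 = ∑ x ∈ S, g x ^ 2 :=
    sum_congr rfl fun x hx => by simp only [g, if_pos hx, sq_abs]
  have hq : ∑ x ∈ S, ∑ y ∈ G.neighborFinset x ∩ S, f x * f y ≤
      ∑ x ∈ S, ∑ y ∈ G.neighborFinset x, g x * g y := by
    refine sum_le_sum fun x hx => le_trans (sum_le_sum fun y hy => ?_)
      (sum_le_sum_of_subset_of_nonneg (inter_subset_left (s₂ := S))
        fun y _ _ => mul_nonneg (hg0 x) (hg0 y))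
    simp only [g, if_pos hx, if_pos (mem_inter.mp hy).2]
    rw [← abs_mul]; exact le_abs_self _
  have hc := coarea h S (fun x => g x ^ 2) (fun x => sq_nonneg _) hgS
  have hR := cheeger_swap hd S (fun x => g x ^ 2) (fun x => sq_nonneg _) hgS
  have hA : ∑ x ∈ S, ∑ y ∈ G.neighborFinset x, g x ^ 2 = d * ∑ x ∈ S, g x ^ 2 := by
    rw [mul_sum]
    refine sum_congr rfl fun x _ => ?_
    rw [sum_const, nsmul_eq_mul, SimpleGraph.card_neighborFinset_eq_degree, hd]
  have hP : Φ * ∑ x ∈ S, ∑ y ∈ G.neighborFinset x, max (g x ^ 2 - g y ^ 2) 0 ≤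
      (2 + Φ ^ 2 / 4) * ∑ x ∈ S, ∑ y ∈ G.neighborFinset x, g x ^ 2 +
      (2 + Φ ^ 2 / 4) * ∑ x ∈ S, ∑ y ∈ G.neighborFinset x, g y ^ 2 -
      4 * ∑ x ∈ S, ∑ y ∈ G.neighborFinset x, g x * g y := by
    simp only [mul_sum, ← sum_add_distrib, ← sum_sub_distrib]
    exact sum_le_sum fun x _ => sum_le_sum fun y _ => cheeger_pt hΦ _ _
  have h6 := mul_le_mul_of_nonneg_left hc hΦ
  have h7 := mul_le_mul_of_nonneg_left hR (show (0 : ℝ) ≤ 2 + Φ ^ 2 / 4 by positivity)
  rw [hN]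
  rw [hA] at hP
  nlinarith

end Vale.Agent.P165
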