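import Vale.Agent.P151.Defs
import Mathlib.Combinatorics.SimpleGraph.Metric

/-! Statement-level definitions for P165: uniqueness threshold and power graphs. -/

namespace Vale.Agent.P165

open MeasureTheory unitInterval Vale.Agent.P151

/-- The event that there is exactly one infinite open cluster. -/
def uniqEvent (V : Type*) : Set (Set (Sym2 V)) :=
  {ω | ∃ x, (cluster ω x).Infinite ∧ ∀ y, (cluster ω y).Infinite → cluster ω y = cluster ω x}

/-- The uniqueness threshold `p_u(G) = inf {p ∈ [0,1] : P_p(exactly one infinite cluster) = 1}`. -/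
noncomputable def pu {V : Type*} (G : SimpleGraph V) : I :=
  sInf {p : I | percMeasure G p (uniqEvent V) = 1}

/-- The `k`-th power of `G`: distinct vertices at graph distance at most `k` are adjacent. -/
def powG {V : Type*} (G : SimpleGraph V) (k : ℕ) : SimpleGraph V where
  Adj x y := x ≠ y ∧ G.dist x y ≤ k
  symm := ⟨fun _ _ h => ⟨h.1.symm, by rw [SimpleGraph.dist_comm]; exact h.2⟩⟩
  loopless := ⟨fun _ h => h.1 rfl⟩

end Vale.Agent.P165
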