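import Vale.Agent.P165.Base

/-! An approximate positive eigenfunction of the adjacency operator. -/

namespace Vale.Agent.P165

open Finset

variable {V : Type*} [DecidableEq V] {G : SimpleGraph V} [G.LocallyFinite]

variable (G) in
/-- the adjacency operator -/
def EigA (u : V → ℝ) (x : V) : ℝ := ∑ y ∈ G.neighborFinset x, u y

variable (G) in
/-- invariance under automorphisms -/
def EigInv (u : V → ℝ) : Prop := ∀ (γ : G ≃g G) (x : V), u (γ x) = u x

omit [DecidableEq V] in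
theorem EigInv.A {u : V → ℝ} (h : EigInv G u) : EigInv G (EigA G u) := by
  intro γ x
  unfold EigA
  symm
  refine sum_equiv γ.toEquiv (fun y => ?_) (fun y _ => (h γ y).symm)
  rw [SimpleGraph.mem_neighborFinset, SimpleGraph.mem_neighborFinset]
  exact γ.map_rel_iff.symm

omit [DecidableEq V] [G.LocallyFinite] in
theorem Eig_max [Nonempty V] (hq : ∃ F : Finset V, ∀ v, ∃ γ : G ≃g G, ∃ u ∈ F, γ u = v)
    {u : V → ℝ} (h : EigInv G u) : ∃ z, ∀ x, u x ≤ u z := by
  obtain ⟨F, hF⟩ := hq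
  obtain ⟨γ0, u0, hu0, -⟩ := hF (Classical.arbitrary V)
  obtain ⟨z, -, hz⟩ := F.exists_max_image u ⟨u0, hu0⟩
  refine ⟨z, fun x => ?_⟩
  obtain ⟨γ, y, hy, rfl⟩ := hF x
  rw [h γ y]
  exact hz y hy

omit [DecidableEq V] in
open Classical in
theorem Eig_low {c : ℝ}
    (hden : ∀ x z, c ≤ (((G.neighborFinset x).filter fun y => ∃ γ : G ≃g G, γ z = y).card : ℝ))
    {u : V → ℝ} (h : EigInv G u) (h0 : ∀ x, 0 ≤ u x) (x z : V) : c * u z ≤ EigA G u x := by
  calc c * u z ≤ (((G.neighborFinset x).filter fun y => ∃ γ : G ≃g G, γ z = y).card : ℝ) * u z :=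
        mul_le_mul_of_nonneg_right (hden x z) (h0 z)
    _ = ∑ y ∈ (G.neighborFinset x).filter fun y => ∃ γ : G ≃g G, γ z = y, u y := by
        rw [← nsmul_eq_mul, ← sum_const]
        refine sum_congr rfl fun y hy => ?_
        obtain ⟨γ, rfl⟩ := (mem_filter.1 hy).2
        exact (h γ z).symm
    _ ≤ _ := sum_le_sum_of_subset_of_nonneg (filter_subset _ _) fun y _ _ => h0 y

omit [DecidableEq V] in
theorem Eig_up {D m : ℝ} (hdeg : ∀ v, (G.degree v : ℝ) ≤ D) {u : V → ℝ} (hm : 0 ≤ m)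
    (h : ∀ x, u x ≤ m) (x : V) : EigA G u x ≤ D * m := by
  calc EigA G u x ≤ ∑ _y ∈ G.neighborFinset x, m := sum_le_sum fun y _ => h y
    _ = (G.degree x : ℝ) * m := by
        rw [sum_const, nsmul_eq_mul, SimpleGraph.card_neighborFinset_eq_degree]
    _ ≤ _ := mul_le_mul_of_nonneg_right (hdeg x) hm

omit [DecidableEq V] in
theorem Eig_lin (s t : ℝ) (u v : V → ℝ) (x : V) :
    EigA G (fun y => s * u y + t * v y) x = s * EigA G u x + t * EigA G v x := by
  unfold EigA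
  rw [sum_add_distrib, mul_sum, mul_sum]

omit [DecidableEq V] in
theorem Eig_nonneg {u : V → ℝ} (h0 : ∀ x, 0 ≤ u x) (x : V) : 0 ≤ EigA G u x :=
  sum_nonneg fun y _ => h0 y

omit [DecidableEq V] in
open Classical in
theorem Eig_iter [Nonempty V] (hq : ∃ F : Finset V, ∀ v, ∃ γ : G ≃g G, ∃ u ∈ F, γ u = v) {D C : ℝ}
    (hD : 0 < D) (hC : 1 ≤ C) (hdeg : ∀ v, (G.degree v : ℝ) ≤ D)
    (hden : ∀ x z, D / C ≤
      (((G.neighborFinset x).filter fun y => ∃ γ : G ≃g G, γ z = y).card : ℝ)) (n : ℕ) :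
    ∃ (w : V → ℝ) (a b : ℝ), EigInv G w ∧ (∀ x, 0 < w x) ∧ a ≤ b ∧ b ≤ D ∧
      (∀ x, a * w x ≤ EigA G w x ∧ EigA G w x ≤ b * w x) ∧ b - a ≤ (1 - 1 / (2 * C)) ^ n * D := by
  have hC0 : 0 < C := lt_of_lt_of_le one_pos hC
  obtain ⟨t, ht⟩ : ∃ t, t = 1 / (2 * C) := ⟨_, rfl⟩
  have ht0 : 0 < t := by rw [ht]; positivity
  have ht1 : t ≤ 1 := by
    rw [ht, div_le_one (by positivity)]; linarith
  have htD : D / C = 2 * t * D := by rw [ht]; field_simp
  rw [← ht]
  induction n with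
  | zero =>
    refine ⟨fun _ => 1, 0, D, fun _ _ => rfl, fun _ => one_pos, hD.le, le_rfl, fun x => ⟨?_, ?_⟩,
      by simp⟩
    · rw [zero_mul]; exact Eig_nonneg (fun _ => zero_le_one) x
    · exact Eig_up hdeg zero_le_one (fun _ => le_rfl) x
  | succ n ih =>
    obtain ⟨w, a, b, hw, hw0, hab, hbD, hA, hgap⟩ := ih
    obtain ⟨z, hz⟩ := Eig_max hq hw
    have hAw := hw.A
    have hpos : ∀ x, 0 < EigA G w x := fun x =>
      lt_of_lt_of_le (mul_pos (div_pos hD hC0) (hw0 x)) (Eig_low hden hw (fun y => (hw0 y).le) x x)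
    have hup : ∀ x, EigA G w x ≤ D * w z := Eig_up hdeg (hw0 z).le hz
    have hu : EigInv G (fun y => b * w y + (-1) * EigA G w y) := fun γ x => by
      simp only [hw γ x, hAw γ x]
    have hv : EigInv G (fun y => (-a) * w y + 1 * EigA G w y) := fun γ x => by
      simp only [hw γ x, hAw γ x]
    have hu0 : ∀ y, 0 ≤ b * w y + (-1) * EigA G w y := fun y => by linarith [(hA y).2]
    have hv0 : ∀ y, 0 ≤ (-a) * w y + 1 * EigA G w y := fun y => by linarith [(hA y).1]
    have hAu : ∀ x, 0 ≤ b * EigA G w x + (-1) * EigA G (EigA G w) x := fun x => by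
      rw [← Eig_lin]; exact Eig_nonneg hu0 x
    have hAv : ∀ x, 0 ≤ (-a) * EigA G w x + 1 * EigA G (EigA G w) x := fun x => by
      rw [← Eig_lin]; exact Eig_nonneg hv0 x
    have hba : 0 ≤ b - a := sub_nonneg.2 hab
    have hgap' : (b - a) * (1 - t) ≤ (1 - t) ^ (n + 1) * D := by
      have := mul_le_mul_of_nonneg_right hgap (sub_nonneg.2 ht1)
      rw [pow_succ]; linarith
    have hk : ∀ x, (b - a) * t * EigA G w x ≤ (b - a) * t * (D * w z) := fun x =>
      mul_le_mul_of_nonneg_left (hup x) (mul_nonneg hba ht0.le)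
    have htD0 : 0 ≤ 2 * t * D := by positivity
    have hbt : 0 ≤ (b - a) * t := mul_nonneg hba ht0.le
    have hbt1 : (b - a) * t ≤ b - a := mul_le_of_le_one_right hba ht1
    rcases le_total ((b - a) * w z / 2) (b * w z + (-1) * EigA G w z) with h | h
    · refine ⟨EigA G w, a, b - (b - a) * t, hAw, hpos, by linarith, by linarith, fun x => ⟨?_, ?_⟩,
        by linarith⟩
      · linarith [hAv x]
      · have h1 := Eig_low hden hu hu0 x z
        rw [Eig_lin, htD] at h1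
        have h2 := mul_le_mul_of_nonneg_left h htD0
        have h3 := hk x
        linarith
    · refine ⟨EigA G w, a + (b - a) * t, b, hAw, hpos, by linarith, hbD, fun x => ⟨?_, ?_⟩,
        by linarith⟩
      · have h1 := Eig_low hden hv hv0 x z
        rw [Eig_lin, htD] at h1
        have h' : (b - a) * w z / 2 ≤ (-a) * w z + 1 * EigA G w z := by linarith
        have h2 := mul_le_mul_of_nonneg_left h' htD0
        have h3 := hk x
        linarith
      · linarith [hAu x]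

open Classical in
theorem eig [Nonempty V] (hq : ∃ F : Finset V, ∀ v, ∃ γ : G ≃g G, ∃ u ∈ F, γ u = v) {D C : ℝ}
    (hD : 0 < D) (hC : 1 ≤ C) (hdeg : ∀ v, (G.degree v : ℝ) ≤ D)
    (hden : ∀ x z, D / C ≤
      (((G.neighborFinset x).filter fun y => ∃ γ : G ≃g G, γ z = y).card : ℝ))
    {η : ℝ} (hη : 0 < η) :
    ∃ (w : V → ℝ) (a b : ℝ), (∀ x, 1 ≤ w x ∧ w x ≤ C) ∧
      (∀ x, a * w x ≤ ∑ y ∈ G.neighborFinset x, w y ∧ ∑ y ∈ G.neighborFinset x, w y ≤ b * w x) ∧
      b - a ≤ η ∧ b ≤ D := by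
  have hC0 : 0 < C := lt_of_lt_of_le one_pos hC
  have ht : 1 - 1 / (2 * C) < 1 := by
    have : 0 < 1 / (2 * C) := by positivity
    linarith
  obtain ⟨n, hn⟩ := exists_pow_lt_of_lt_one (div_pos hη hD) ht
  obtain ⟨w, a, b, hw, hw0, -, hbD, hA, hgap⟩ := Eig_iter hq hD hC hdeg hden n
  obtain ⟨z, hz⟩ := Eig_max hq hw
  have hm : 0 < D / C * w z := mul_pos (div_pos hD hC0) (hw0 z)
  obtain ⟨m, hm'⟩ : ∃ m, m = D / C * w z := ⟨_, rfl⟩
  have hlow : ∀ x, m ≤ EigA G w x := fun x => hm' ▸ Eig_low hden hw (fun y => (hw0 y).le) x z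
  have hup : ∀ x, EigA G w x ≤ C * m := fun x => by
    have h1 := Eig_up hdeg (hw0 z).le hz x
    have h2 : C * m = D * w z := by rw [hm']; field_simp
    rwa [h2]
  rw [← hm'] at hm
  have hu0 : ∀ y, 0 ≤ b * w y + (-1) * EigA G w y := fun y => by linarith [(hA y).2]
  have hv0 : ∀ y, 0 ≤ (-a) * w y + 1 * EigA G w y := fun y => by linarith [(hA y).1]
  have hAu : ∀ x, 0 ≤ b * EigA G w x + (-1) * EigA G (EigA G w) x := fun x => by
    rw [← Eig_lin]; exact Eig_nonneg hu0 x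
  have hAv : ∀ x, 0 ≤ (-a) * EigA G w x + 1 * EigA G (EigA G w) x := fun x => by
    rw [← Eig_lin]; exact Eig_nonneg hv0 x
  refine ⟨fun x => EigA G w x / m, a, b, fun x => ⟨?_, ?_⟩, fun x => ?_, ?_, hbD⟩
  · rw [le_div_iff₀ hm, one_mul]; exact hlow x
  · rw [div_le_iff₀ hm]; exact hup x
  · have e : ∑ y ∈ G.neighborFinset x, EigA G w y / m = EigA G (EigA G w) x / m := by
      rw [← sum_div]; rfl
    beta_reduce
    rw [e, ← mul_div_assoc, ← mul_div_assoc]
    exact ⟨div_le_div_of_nonneg_right (by linarith [hAv x]) hm.le,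
      div_le_div_of_nonneg_right (by linarith [hAu x]) hm.le⟩
  · rw [lt_div_iff₀ hD] at hn
    linarith

end Vale.Agent.P165
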