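import Vale.Agent.P165.Base

/-! Power graphs of a transitive graph. -/

namespace Vale.Agent.P165

open Finset Vale.Agent.P151G

variable {V : Type*} [DecidableEq V] {G : SimpleGraph V} [G.LocallyFinite]

theorem Pow_walk {x y : V} (p : G.Walk x y) : y ∈ ball G x p.length := by
  induction p with
  | nil => exact mem_ball_self _ _
  | cons h p ih =>
    have := ball_trans (ball_adj (mem_ball_self _ 0) h) ih
    rwa [zero_add, add_comm] at this

omit [DecidableEq V] [G.LocallyFinite] in
theorem Pow_dist_le (hc : G.Connected) (γ : G ≃g G) (a b : V) :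
    G.dist (γ a) (γ b) ≤ G.dist a b := by
  obtain ⟨p, hp⟩ := hc.exists_walk_length_eq_dist a b
  have := SimpleGraph.dist_le (p.map γ.toHom)
  rw [SimpleGraph.Walk.length_map, hp] at this
  exact this

omit [DecidableEq V] in
theorem Pow_deg (ht : ∀ x y, ∃ γ : G ≃g G, γ x = y) (a b : V) : G.degree a ≤ G.degree b := by
  obtain ⟨γ, hγ⟩ := ht a b
  rw [← SimpleGraph.card_neighborFinset_eq_degree, ← SimpleGraph.card_neighborFinset_eq_degree]
  refine card_le_card_of_injOn γ (fun z hz => ?_) (fun _ _ _ _ h => γ.injective h)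
  rw [← hγ]
  simp only [mem_coe, SimpleGraph.mem_neighborFinset] at hz ⊢
  exact γ.map_rel_iff.2 hz

theorem mem_ball_iff (hc : G.Connected) {x y : V} {k : ℕ} : y ∈ ball G x k ↔ G.dist x y ≤ k := by
  constructor
  · intro h
    induction k generalizing y with
    | zero => rw [mem_ball_zero.1 h]; simp
    | succ k ih =>
      rcases mem_ball_succ.1 h with h1 | ⟨z, hz, hzy⟩
      · exact (ih h1).trans (Nat.le_succ _)
      · have h1 := ih hz
        have h2 : G.dist x y ≤ G.dist x z + G.dist z y := hc.dist_triangle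
        have h3 : G.dist z y = 1 := SimpleGraph.dist_eq_one_iff_adj.2 hzy
        omega
  · intro h
    obtain ⟨p, hp⟩ := hc.exists_walk_length_eq_dist x y
    exact ball_mono x (hp ▸ h) (Pow_walk p)

omit [DecidableEq V] [G.LocallyFinite] in
theorem pow_connected (hc : G.Connected) {k : ℕ} (hk : 1 ≤ k) : (powG G k).Connected := by
  refine hc.mono ?_
  intro x y hxy
  refine ⟨hxy.ne, ?_⟩
  rw [SimpleGraph.dist_eq_one_iff_adj.2 hxy]
  exact hk

omit [DecidableEq V] [G.LocallyFinite] in
theorem pow_aut (hc : G.Connected) (k : ℕ) (γ : G ≃g G) :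
    ∃ γ' : powG G k ≃g powG G k, ∀ x, γ' x = γ x := by
  refine ⟨⟨γ.toEquiv, ?_⟩, fun x => rfl⟩
  intro a b
  change (γ a ≠ γ b ∧ G.dist (γ a) (γ b) ≤ k) ↔ (a ≠ b ∧ G.dist a b ≤ k)
  have h1 : G.dist (γ a) (γ b) = G.dist a b := by
    refine le_antisymm (Pow_dist_le hc γ a b) ?_
    simpa using Pow_dist_le hc γ.symm (γ a) (γ b)
  rw [h1]
  simp

theorem le_card_ball [Infinite V] (hc : G.Connected) (x : V) (k : ℕ) :
    k + 1 ≤ (ball G x k).card := by
  induction k with
  | zero => simp [ball]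
  | succ k ih =>
    have hsub : ball G x k ⊆ ball G x (k + 1) := ball_mono x (Nat.le_succ _)
    by_contra hlt
    have heq : ball G x k = ball G x (k + 1) := eq_of_subset_of_card_le hsub (by omega)
    have hall : ∀ n, ball G x n ⊆ ball G x k := by
      intro n
      induction n with
      | zero => exact ball_mono x (Nat.zero_le _)
      | succ n ihn =>
        intro y hy
        rcases mem_ball_succ.1 hy with h1 | ⟨z, hz, hzy⟩
        · exact ihn h1
        · rw [heq]; exact ball_adj (ihn hz) hzy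
    obtain ⟨y, hy⟩ := Infinite.exists_notMem_finset (ball G x k)
    obtain ⟨n, hn⟩ := exists_mem_ball hc x y
    exact hy (hall n hn)

theorem card_ball_eq (ht : ∀ x y, ∃ γ : G ≃g G, γ x = y) (x y : V) (k : ℕ) :
    (ball G x k).card = (ball G y k).card := by
  have key : ∀ a b : V, (ball G a k).card ≤ (ball G b k).card := by
    intro a b
    obtain ⟨γ, hγ⟩ := ht a b
    refine card_le_card_of_injOn γ (fun z hz => ?_) (fun _ _ _ _ h => γ.injective h)
    rw [← hγ]
    exact mem_coe.2 (ball_aut γ (mem_coe.1 hz))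
  exact le_antisymm (key x y) (key y x)

theorem pow_iso (ht : ∀ x y, ∃ γ : G ≃g G, γ x = y) (o : V) {h : ℝ} (h0 : 0 ≤ h)
    (hh : ∀ A : Finset V, A.Nonempty →
      h * A.card ≤ ({y | y ∉ A ∧ ∃ x ∈ A, G.Adj x y}.ncard : ℝ)) (k : ℕ) (A : Finset V) :
    h / (G.degree o + 1) ^ 2 * (ball G o (k + 1)).card * A.card ≤
      ∑ x ∈ A, ((ball G x (k + 1) \ A).card : ℝ) := by
  classical
  rcases A.eq_empty_or_nonempty with rfl | hA
  · simp
  have hdeg : ∀ v, G.degree v ≤ G.degree o := fun v => Pow_deg ht v o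
  set d := G.degree o with hd
  set D : Finset V := (A.biUnion fun x => G.neighborFinset x) \ A with hD
  have hDm : ∀ y, y ∈ D ↔ y ∉ A ∧ ∃ x ∈ A, G.Adj x y := by
    intro y
    simp [hD, and_comm]
  have hDc : {y | y ∉ A ∧ ∃ x ∈ A, G.Adj x y}.ncard = D.card := by
    rw [← Set.ncard_coe_finset]
    congr 1
    ext y
    simp only [Set.mem_ofPred_eq, mem_coe, hDm]
  have h1 := hh A hA
  rw [hDc] at h1
  have hu : ∀ v, ∃ u, v ∈ D → u ∈ A ∧ G.Adj u v := by
    intro v
    by_cases hv : v ∈ D
    · obtain ⟨x, hx, hxv⟩ := ((hDm v).1 hv).2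
      exact ⟨x, fun _ => ⟨hx, hxv⟩⟩
    · exact ⟨v, fun h => absurd h hv⟩
  choose u hu using hu
  let f : (Σ _ : V, V) → (Σ _ : V, V) := fun a => if a.2 ∈ A then ⟨a.2, a.1⟩ else ⟨u a.1, a.2⟩
  have h2 := card_le_mul_card_image_of_maps_to (f := f)
    (s := D.sigma fun v => ball G v k) (t := A.sigma fun x => ball G x (k + 1) \ A)
    (by
      rintro ⟨v, z⟩ ha
      obtain ⟨hv, hz⟩ := mem_sigma.1 ha
      simp only at hv hz
      by_cases hzA : z ∈ A
      · simp only [f, hzA, if_true]
        exact mem_sigma.2 ⟨hzA, mem_sdiff.2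
          ⟨ball_mono z (Nat.le_succ _) (ball_symm hz), ((hDm v).1 hv).1⟩⟩
      · simp only [f, hzA, if_false]
        refine mem_sigma.2 ⟨(hu v hv).1, mem_sdiff.2 ⟨?_, hzA⟩⟩
        have := ball_trans (ball_adj (mem_ball_self (u v) 0) (hu v hv).2) hz
        rwa [zero_add, add_comm] at this) (d + 1)
    (by
      rintro ⟨x, y⟩ -
      have hsub : ((D.sigma fun v => ball G v k).filter fun a => f a = ⟨x, y⟩) ⊆
          insert (⟨y, x⟩ : Σ _ : V, V) ((G.neighborFinset x).image fun v => ⟨v, y⟩) := by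
        rintro ⟨v, z⟩ ha
        obtain ⟨ha, hf⟩ := mem_filter.1 ha
        obtain ⟨hv, -⟩ := mem_sigma.1 ha
        simp only at hv
        by_cases hzA : z ∈ A
        · simp only [f, hzA, if_true, Sigma.mk.injEq, heq_eq_eq] at hf
          obtain ⟨rfl, rfl⟩ := hf
          exact mem_insert_self _ _
        · simp only [f, hzA, if_false, Sigma.mk.injEq, heq_eq_eq] at hf
          obtain ⟨rfl, rfl⟩ := hf
          exact mem_insert_of_mem (mem_image.2
            ⟨v, (G.mem_neighborFinset _ _).2 (hu v hv).2, rfl⟩)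
      refine (card_le_card hsub).trans ((card_insert_le _ _).trans ?_)
      have := card_image_le (s := G.neighborFinset x) (f := fun v => (⟨v, y⟩ : Σ _ : V, V))
      rw [SimpleGraph.card_neighborFinset_eq_degree] at this
      have := hdeg x
      omega)
  rw [card_sigma, card_sigma, sum_congr rfl (fun v _ => card_ball_eq ht v o k), sum_const,
    smul_eq_mul] at h2
  have h3 : (ball G o (k + 1)).card ≤ (d + 1) * (ball G o k).card := by
    have h4 : ((ball G o k).biUnion fun y => G.neighborFinset y).card ≤ (ball G o k).card * d :=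
      card_biUnion_le_card_mul _ _ _ fun y _ => by
        rw [SimpleGraph.card_neighborFinset_eq_degree]; exact hdeg y
    calc (ball G o (k + 1)).card ≤ (ball G o k).card + (ball G o k).card * d :=
          (card_union_le _ _).trans (Nat.add_le_add_left h4 _)
      _ = _ := by ring
  have h2' : (D.card : ℝ) * (ball G o k).card ≤
      ((d : ℝ) + 1) * ∑ x ∈ A, ((ball G x (k + 1) \ A).card : ℝ) := by exact_mod_cast h2
  have h3' : ((ball G o (k + 1)).card : ℝ) ≤ ((d : ℝ) + 1) * (ball G o k).card := by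
    exact_mod_cast h3
  have hd0 : (0 : ℝ) < (d : ℝ) + 1 := by positivity
  have hb0 : (0 : ℝ) ≤ (ball G o k).card := by positivity
  have hA0 : (0 : ℝ) ≤ h * A.card := by positivity
  rw [div_mul_eq_mul_div, div_mul_eq_mul_div, div_le_iff₀ (by positivity)]
  calc h * (ball G o (k + 1)).card * A.card = (h * A.card) * (ball G o (k + 1)).card := by ring
    _ ≤ (h * A.card) * (((d : ℝ) + 1) * (ball G o k).card) := mul_le_mul_of_nonneg_left h3' hA0
    _ = ((d : ℝ) + 1) * ((h * A.card) * (ball G o k).card) := by ring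
    _ ≤ ((d : ℝ) + 1) * ((D.card : ℝ) * (ball G o k).card) :=
        mul_le_mul_of_nonneg_left (mul_le_mul_of_nonneg_right h1 hb0) hd0.le
    _ ≤ ((d : ℝ) + 1) * (((d : ℝ) + 1) * ∑ x ∈ A, ((ball G x (k + 1) \ A).card : ℝ)) :=
        mul_le_mul_of_nonneg_left h2' hd0.le
    _ = _ := by ring

end Vale.Agent.P165
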