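import Vale.Agent.P165.Base

/-! Russo formula and the differential inequality. -/

namespace Vale.Agent.P165

open Finset Vale.Agent.P151 Vale.Agent.P151G

theorem russo {ε : Type*} [DecidableEq ε] (U : Finset ε) (f : Finset ε → ℝ) (q : ℝ) :
    HasDerivAt (fun t : ℝ => Ex U (fun _ => t) f)
      (∑ e ∈ U, Ex U (fun _ => q) (fun ω => f (insert e ω) - f (ω.erase e))) q := by
  induction U using Finset.induction_on generalizing f with
  | empty => simpa using hasDerivAt_const q (f ∅)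
  | insert e U he ih =>
    have h1 := ih (fun ω => f (insert e ω))
    have h2 := ih f
    have h3 := ((hasDerivAt_id q).mul h1).add (((hasDerivAt_id q).const_sub 1).mul h2)
    have e1 : (fun t : ℝ => Ex (insert e U) (fun _ => t) f) = fun t : ℝ =>
        t * Ex U (fun _ => t) (fun ω => f (insert e ω)) + (1 - t) * Ex U (fun _ => t) f := by
      funext t
      exact Ex_insert he f
    rw [e1]
    refine HasDerivAt.congr_deriv h3 ?_
    rw [sum_insert he, Ex_insert he]
    have a1 : Ex U (fun _ => q) (fun ω => f (insert e (insert e ω)) - f ((insert e ω).erase e)) =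
        Ex U (fun _ => q) (fun ω => f (insert e ω)) - Ex U (fun _ => q) f := by
      rw [← Ex_sub]
      refine Ex_congr fun ω hω => ?_
      rw [insert_idem, erase_insert (fun h => he (hω h))]
    have a2 : Ex U (fun _ => q) (fun ω => f (insert e ω) - f (ω.erase e)) =
        Ex U (fun _ => q) (fun ω => f (insert e ω)) - Ex U (fun _ => q) f := by
      rw [← Ex_sub]
      refine Ex_congr fun ω hω => ?_
      rw [erase_eq_of_notMem (fun h => he (hω h))]
    have a3 : ∑ x ∈ U, Ex (insert e U) (fun _ => q) (fun ω => f (insert x ω) - f (ω.erase x)) =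
        q * ∑ x ∈ U, Ex U (fun _ => q) (fun ω => f (insert e (insert x ω)) -
          f (insert e (ω.erase x))) +
        (1 - q) * ∑ x ∈ U, Ex U (fun _ => q) (fun ω => f (insert x ω) - f (ω.erase x)) := by
      rw [mul_sum, mul_sum, ← sum_add_distrib]
      refine sum_congr rfl fun x hx => ?_
      have hne : e ≠ x := fun h => he (h ▸ hx)
      rw [Ex_insert he]
      congr 2
      refine Ex_congr fun ω _ => ?_
      rw [insert_comm, erase_insert_of_ne hne]
    rw [a1, a2, a3]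
    simp only [id]
    ring

variable {V : Type*} [DecidableEq V] {G : SimpleGraph V} [G.LocallyFinite]

open Classical in
/-- vertices of the ball not joined to the sphere -/
noncomputable def russoS (G : SimpleGraph V) [G.LocallyFinite] (o : V) (n : ℕ)
    (ω : Finset (Sym2 V)) : Finset V :=
  (ball G o n).filter fun x => ¬ ∃ b ∈ sph G o n, Conn (ω ∩ eIn G (ball G o n)) x b

theorem mem_russoS {o x : V} {n : ℕ} {ω : Finset (Sym2 V)} : x ∈ russoS G o n ω ↔
    x ∈ ball G o n ∧ ¬ ∃ b ∈ sph G o n, Conn (ω ∩ eIn G (ball G o n)) x b := by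
  simp only [russoS, mem_filter]

theorem russoS_eq {o : V} {n : ℕ} {ω ω' : Finset (Sym2 V)}
    (h : ω' ∩ (eIn G (ball G o n) \ eIn G (russoS G o n ω)) =
      ω ∩ (eIn G (ball G o n) \ eIn G (russoS G o n ω))) : russoS G o n ω' = russoS G o n ω := by
  have key : ∀ a c, a ∉ russoS G o n ω → s(a, c) ∈ eIn G (ball G o n) →
      (s(a, c) ∈ ω' ↔ s(a, c) ∈ ω) := by
    intro a c ha hac
    have h1 : s(a, c) ∈ eIn G (ball G o n) \ eIn G (russoS G o n ω) :=
      mem_sdiff.2 ⟨hac, fun h => ha (mk_mem_eIn.1 h).1⟩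
    have := Finset.ext_iff.1 h s(a, c)
    simpa only [mem_inter, h1, and_true] using this
  ext x
  constructor
  · intro hx
    rw [mem_russoS] at hx ⊢
    refine ⟨hx.1, fun ⟨b, hb, hc⟩ => hx.2 ⟨b, hb, Conn.symm ?_⟩⟩
    refine Conn.induction (P := fun y => Conn (ω' ∩ eIn G (ball G o n)) b y) (Conn.refl _ _)
      (fun a c hba ih hac _ => ih.trans (Conn.of_mem ?_)) hc.symm
    rw [mem_inter] at hac ⊢
    exact ⟨(key a c (fun h => (mem_russoS.1 h).2 ⟨b, hb, hba.symm⟩) hac.2).2 hac.1, hac.2⟩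
  · intro hx
    refine mem_russoS.2 ⟨(mem_russoS.1 hx).1, fun ⟨b, hb, hc⟩ => ?_⟩
    refine Conn.induction (P := fun y => y ∉ russoS G o n ω)
      (fun h => (mem_russoS.1 h).2 ⟨b, hb, Conn.refl _ _⟩) (fun a c _ ih hac _ hc' => ?_)
      hc.symm hx
    rw [mem_inter] at hac
    have h1 : s(a, c) ∈ ω ∩ eIn G (ball G o n) :=
      mem_inter.2 ⟨(key a c ih hac.2).1 hac.1, hac.2⟩
    refine ih (mem_russoS.2 ⟨(mk_mem_eIn.1 hac.2).1, fun ⟨t, ht, hat⟩ => ?_⟩)
    exact (mem_russoS.1 hc').2 ⟨t, ht, (Conn.of_mem h1).symm.trans hat⟩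

theorem russo_point {o : V} {n : ℕ} {c d : Finset (Sym2 V)} (hc : c ⊆ eIn G (ball G o n))
    (hd : d ⊆ c) (ho : o ∈ russoS G o n c) :
    ∑ x ∈ russoS G o n c, ind (Conn d o x) * ((G.neighborFinset x \ russoS G o n c).card : ℝ) ≤
      ∑ e ∈ eIn G (ball G o n), (ind (∃ b ∈ sph G o n, Conn (insert e c) o b) -
        ind (∃ b ∈ sph G o n, Conn c o b)) := by
  have hcU : c ∩ eIn G (ball G o n) = c := inter_eq_left.2 hc
  have hA : ¬ ∃ b ∈ sph G o n, Conn c o b := by
    have := (mem_russoS.1 ho).2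
    rwa [hcU] at this
  simp only [ind_neg hA, sub_zero]
  set S := russoS G o n c with hS
  have hB : ∀ x ∈ S, ∀ y, G.Adj x y → y ∈ ball G o n := by
    intro x hx y hxy
    by_contra hy
    exact (mem_russoS.1 hx).2 ⟨x, mem_sph.2 ⟨(mem_russoS.1 hx).1, y, hy, hxy⟩, Conn.refl _ _⟩
  have e1 : ∑ x ∈ S, ind (Conn d o x) * ((G.neighborFinset x \ S).card : ℝ) =
      ∑ p ∈ S.sigma (fun x => G.neighborFinset x \ S), ind (Conn d o p.1) := by
    rw [← sum_sigma' S (fun x => G.neighborFinset x \ S) (fun x _ => ind (Conn d o x))]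
    refine sum_congr rfl fun x _ => ?_
    rw [sum_const, nsmul_eq_mul, mul_comm]
  rw [e1]
  have hinj : ∀ p ∈ S.sigma (fun x => G.neighborFinset x \ S),
      ∀ p' ∈ S.sigma (fun x => G.neighborFinset x \ S), s(p.1, p.2) = s(p'.1, p'.2) → p = p' := by
    rintro ⟨x, y⟩ hp ⟨x', y'⟩ hp' h
    simp only [mem_sigma, mem_sdiff] at hp hp'
    rcases Sym2.eq_iff.1 h with ⟨h1, h2⟩ | ⟨h1, h2⟩
    · simp only at h1 h2
      subst h1 h2
      rfl
    · simp only at h1 h2
      exact absurd (h1 ▸ hp.1) hp'.2.2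
  calc ∑ p ∈ S.sigma (fun x => G.neighborFinset x \ S), ind (Conn d o p.1)
      ≤ ∑ p ∈ S.sigma (fun x => G.neighborFinset x \ S),
          ind (∃ b ∈ sph G o n, Conn (insert s(p.1, p.2) c) o b) := by
        refine sum_le_sum fun p hp => ind_mono fun h => ?_
        simp only [mem_sigma, mem_sdiff, SimpleGraph.mem_neighborFinset] at hp
        have hy : ∃ b ∈ sph G o n, Conn (c ∩ eIn G (ball G o n)) p.2 b := by
          by_contra hn
          exact hp.2.2 (mem_russoS.2 ⟨hB _ hp.1 _ hp.2.1, hn⟩)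
        obtain ⟨b, hb, hyb⟩ := hy
        rw [hcU] at hyb
        exact ⟨b, hb, ((h.mono (hd.trans (subset_insert _ _))).trans
          (Conn.of_mem (mem_insert_self _ _))).trans (hyb.mono (subset_insert _ _))⟩
    _ = ∑ e ∈ (S.sigma (fun x => G.neighborFinset x \ S)).image (fun p => s(p.1, p.2)),
          ind (∃ b ∈ sph G o n, Conn (insert e c) o b) :=
        (sum_image (f := fun e => ind (∃ b ∈ sph G o n, Conn (insert e c) o b)) hinj).symm
    _ ≤ _ := by
        refine sum_le_sum_of_subset_of_nonneg ?_ fun _ _ _ => ind_nonneg _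
        intro e he
        obtain ⟨p, hp, rfl⟩ := mem_image.1 he
        simp only [mem_sigma, mem_sdiff, SimpleGraph.mem_neighborFinset] at hp
        exact mk_mem_eIn.2 ⟨(mem_russoS.1 hp.1).1, hB _ hp.1 _ hp.2.1, hp.2.1⟩

theorem piv_ge {q : ℝ} (h0 : 0 ≤ q) (h1 : q ≤ 1) {o : V}
    (h : ∀ S : Finset V, o ∈ S → 1 ≤ psi G q S o) (n : ℕ) :
    1 - theta G q o n ≤ ∑ e ∈ eIn G (ball G o n), Ex (eIn G (ball G o n)) (fun _ => q)
      (fun ω => ind (∃ b ∈ sph G o n, Conn (insert e ω) o b) - ind (∃ b ∈ sph G o n, Conn ω o b)) := by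
  have hv : Valid (fun _ : Sym2 V => q) := valid_const h0 h1
  rw [← Ex_sum, Ex_stop (fun ω => eIn G (ball G o n) \ eIn G (russoS G o n ω))
    (fun ω ω' h => by simp only [russoS_eq h])]
  unfold P151G.theta
  rw [← Pr_not]
  refine Ex_mono hv fun a ha => ?_
  by_cases hA : ∃ b ∈ sph G o n, Conn a o b
  · rw [ind_neg (not_not.2 hA)]
    refine Ex_nonneg hv fun b _ => sum_nonneg fun e _ => sub_nonneg.2 (ind_mono ?_)
    rintro ⟨t, ht, hc⟩
    exact ⟨t, ht, hc.mono (subset_insert _ _)⟩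
  rw [ind_pos hA]
  have ho : o ∈ russoS G o n a :=
    mem_russoS.2 ⟨mem_ball_self _ _, by rwa [inter_eq_left.2 ha]⟩
  have hsub : eIn G (russoS G o n a) ⊆ eIn G (ball G o n) :=
    eIn_mono fun x hx => (mem_russoS.1 hx).1
  refine (h _ ho).trans ?_
  have e1 : psi G q (russoS G o n a) o = Ex (eIn G (ball G o n)) (fun _ => q) fun b =>
      ∑ x ∈ russoS G o n a, ind (Conn (b ∩ eIn G (russoS G o n a)) o x) *
        ((G.neighborFinset x \ russoS G o n a).card : ℝ) := by
    rw [Ex_sum]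
    refine sum_congr rfl fun x _ => ?_
    rw [Ex_mul_const, Ex_universe hsub (fun ω => ind (Conn ω o x))]
    rfl
  rw [e1]
  refine Ex_mono hv fun b hb => ?_
  have e2 := russoS_eq (G := G) (o := o) (n := n)
    (splice_inter (eIn G (ball G o n) \ eIn G (russoS G o n a)) a b)
  have := russo_point (G := G) (o := o) (n := n)
    (c := splice (eIn G (ball G o n) \ eIn G (russoS G o n a)) a b) (splice_subset ha hb)
    (d := b ∩ eIn G (russoS G o n a))
    (fun e he => mem_splice.2 (Or.inr ⟨(mem_inter.1 he).1,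
      fun h => (mem_sdiff.1 h).2 (mem_inter.1 he).2⟩)) (by rw [e2]; exact ho)
  rwa [e2] at this

theorem perc_of_psi {p q : ℝ} (h0 : 0 ≤ p) (hpq : p < q) (h1 : q ≤ 1) {o : V}
    (h : ∀ S : Finset V, o ∈ S → 1 ≤ psi G p S o) : Perc G q o := by
  refine ⟨(q - p) / 2, by linarith, fun n => ?_⟩
  have hmono : Monotone fun ω : Finset (Sym2 V) => ind (∃ b ∈ sph G o n, Conn ω o b) :=
    fun a b hab => ind_mono fun ⟨t, ht, hc⟩ => ⟨t, ht, hc.mono hab⟩
  obtain ⟨c, hc, hd⟩ := exists_hasDerivAt_eq_slope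
    (fun t : ℝ => Ex (eIn G (ball G o n)) (fun _ => t) fun ω => ind (∃ b ∈ sph G o n, Conn ω o b))
    _ hpq (continuous_Ex_const _ _).continuousOn (fun t _ => russo _ _ t)
  have c0 : 0 ≤ c := h0.trans hc.1.le
  have c1 : c ≤ 1 := hc.2.le.trans h1
  have hv : Valid (fun _ : Sym2 V => c) := valid_const c0 c1
  have h2 := piv_ge (G := G) c0 c1 (o := o) (fun S hS => (h S hS).trans (sum_le_sum fun x _ =>
    mul_le_mul_of_nonneg_right (Ex_mono_w (valid_const h0 (hpq.le.trans h1)) hv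
      (fun _ _ => hc.1.le) fun a b hab => ind_mono fun h => h.mono hab) (Nat.cast_nonneg _))) n
  have h3 := h2.trans (sum_le_sum fun e _ => Ex_mono hv fun ω _ =>
    sub_le_sub_left (hmono (erase_subset e ω)) _)
  rw [hd, le_div_iff₀ (by linarith)] at h3
  have h4 : theta G c o n ≤ theta G q o n :=
    Ex_mono_w hv (valid_const (h0.trans hpq.le) h1) (fun _ _ => hc.2.le) hmono
  have h5 : 0 ≤ theta G p o n := Pr_nonneg (valid_const h0 (hpq.le.trans h1)) _
  have h6 : 0 ≤ theta G q o n := Pr_nonneg (valid_const (h0.trans hpq.le) h1) _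
  have h7 : (1 - theta G c o n) * (q - p) ≤ theta G q o n - theta G p o n := h3
  nlinarith

end Vale.Agent.P165
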