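import Vale.Agent.P165.Base

/-! Union bounds over open paths. -/

namespace Vale.Agent.P165

open Finset Vale.Agent.P151 Vale.Agent.P151G

variable {V : Type*} [DecidableEq V] {G : SimpleGraph V} [G.LocallyFinite] {p : ℝ}

omit [G.LocallyFinite] in
theorem exists_path {ω : Finset (Sym2 V)} (hω : ∀ e ∈ ω, e ∈ G.edgeSet) {x y : V}
    (h : Conn ω x y) : ∃ w : G.Walk x y, w.IsPath ∧ (∀ e ∈ w.edges, e ∈ ω) ∧ w.length ≤ ω.card := by
  obtain ⟨q⟩ := h
  have h1 : ∀ e ∈ q.bypass.edges, e ∈ ω := by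
    intro e he
    have h2 := q.bypass.edges_subset_edgeSet he
    rw [SimpleGraph.edgeSet_fromEdgeSet] at h2
    exact mem_coe.1 h2.1
  have hp := (q.bypass_isPath).transfer (H := G) fun e he => hω e (h1 e he)
  refine ⟨_, hp, ?_, ?_⟩
  · rw [SimpleGraph.Walk.edges_transfer]
    exact h1
  · rw [← SimpleGraph.Walk.length_edges, ← List.toFinset_card_of_nodup hp.isTrail.edges_nodup]
    refine card_le_card fun e he => ?_
    rw [List.mem_toFinset, SimpleGraph.Walk.edges_transfer] at he
    exact h1 e he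

theorem path_open_le {ε : Type*} [DecidableEq ε] (h0 : 0 ≤ p) (h1 : p ≤ 1) (U E : Finset ε) :
    Pr U (fun _ => p) (fun ω => E ⊆ ω) ≤ p ^ E.card := by
  by_cases h : E ⊆ U
  · rw [Pr_all_open h, prod_const]
  · refine (Pr_mono (valid_const h0 h1) (B := fun _ => False)
      fun ω hω hE => h (hE.trans hω)).trans ?_
    simp only [Pr, ind_false, Ex_const]
    positivity

theorem tau_le (h0 : 0 ≤ p) (h1 : p ≤ 1) (S : Finset V) (x y : V) :
    tau G p S x y ≤ ∑ n ∈ range ((eIn G S).card + 1), p ^ n * cnt G n x y := by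
  have hw : Valid (fun _ : Sym2 V => p) := valid_const h0 h1
  refine (Pr_mono hw (B := fun ω => ∃ n ∈ range ((eIn G S).card + 1),
    ∃ w ∈ G.finsetWalkLength n x y, w.edges.Nodup ∧ w.edges.toFinset ⊆ ω)
    fun ω hω hc => ?_).trans ((Pr_exists_le hw _ _).trans (sum_le_sum fun n _ => ?_))
  · obtain ⟨w, hp, he, hl⟩ := exists_path (G := G) (fun e he => eIn_edge (hω he)) hc
    exact ⟨w.length, mem_range.2 (Nat.lt_succ_of_le (hl.trans (card_le_card hω))), w,
      SimpleGraph.mem_finsetWalkLength_iff.2 rfl, hp.isTrail.edges_nodup,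
      fun e h => he e (List.mem_toFinset.1 h)⟩
  · refine (Pr_exists_le hw _ _).trans ((sum_le_card_nsmul _ _ (p ^ n) fun w hw' => ?_).trans
      (le_of_eq ?_))
    · by_cases hn : w.edges.Nodup
      · refine (Pr_mono hw fun ω _ h => h.2).trans ((path_open_le h0 h1 _ _).trans (le_of_eq ?_))
        rw [List.toFinset_card_of_nodup hn, SimpleGraph.Walk.length_edges,
          SimpleGraph.mem_finsetWalkLength_iff.1 hw']
      · refine (Pr_mono hw (B := fun _ => False) fun ω _ h => hn h.1).trans ?_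
        simp only [Pr, ind_false, Ex_const]
        positivity
    · rw [nsmul_eq_mul, mul_comm, cnt]

theorem path_one_le (h0 : 0 ≤ p) (h1 : p ≤ 1) (S : Finset V) (o u : V) (L : List (Sym2 V)) :
    Pr (eIn G S) (fun _ => p)
      (fun ω => L.Nodup ∧ L.toFinset ⊆ ω ∧ Conn (ω \ L.toFinset) o u) ≤
      tau G p S o u * p ^ L.length := by
  have hw : Valid (fun _ : Sym2 V => p) := valid_const h0 h1
  have ht : 0 ≤ tau G p S o u := Pr_nonneg hw _
  by_cases hn : L.Nodup
  · have h2 : Pr (eIn G S) (fun _ => p)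
        (fun ω => L.Nodup ∧ L.toFinset ⊆ ω ∧ Conn (ω \ L.toFinset) o u) =
        Pr (eIn G S) (fun _ => p) (fun ω => L.toFinset ⊆ ω ∩ L.toFinset) *
          Pr (eIn G S) (fun _ => p) (fun ω => Conn (ω \ L.toFinset) o u) := by
      unfold Pr
      rw [← Ex_indep L.toFinset (fun a => ind (L.toFinset ⊆ a)) (fun a => ind (Conn a o u))]
      refine Ex_congr fun ω _ => ?_
      rw [← ind_and]
      exact ind_congr (by simp [hn, subset_inter_iff])
    rw [h2, mul_comm]
    refine mul_le_mul (Pr_mono hw fun ω _ h => h.mono sdiff_subset) ?_ (Pr_nonneg hw _) ht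
    rw [← List.toFinset_card_of_nodup hn]
    exact (Pr_mono hw fun ω _ h => h.trans inter_subset_left).trans (path_open_le h0 h1 _ _)
  · refine (Pr_mono hw (B := fun _ => False) fun ω _ h => hn h.1).trans ?_
    simp only [Pr, ind_false, Ex_const]
    positivity

omit [G.LocallyFinite] in
theorem path_hit {ω : Finset (Sym2 V)} {o x y : V} (w : G.Walk x y) (h : Conn ω o x) :
    ∃ u ∈ w.support, Conn (ω \ w.edges.toFinset) o u := by
  by_cases ho : o ∈ w.support
  · exact ⟨o, ho, Conn.refl _ _⟩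
  have key : ∀ a b, a ∉ w.support → s(a, b) ∈ ω → s(a, b) ∈ ω \ w.edges.toFinset :=
    fun a b ha hab => mem_sdiff.2 ⟨hab, fun h2 =>
      ha (w.fst_mem_support_of_mem_edges (List.mem_toFinset.1 h2))⟩
  rcases Conn.exit (ω' := ω \ w.edges.toFinset) (D := {v | v ∉ w.support})
    (fun a b ha _ hab => key a b ha hab) ho h with h2 | ⟨a, b, ha, hb, hab, hc⟩
  · exact absurd w.start_mem_support h2.1
  · exact ⟨b, not_not.1 hb, hc.trans (Conn.of_mem (key a b ha hab))⟩

theorem two_le (h0 : 0 ≤ p) (h1 : p ≤ 1) (S : Finset V) {o : V} (ho : o ∈ S) {x y : V}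
    (hxy : x ≠ y) :
    Pr (eIn G S) (fun _ => p) (fun ω => Conn ω o x ∧ Conn ω o y) ≤
      ∑ u ∈ S, tau G p S o u * ∑ ij ∈ (range ((eIn G S).card + 1) ×ˢ
        range ((eIn G S).card + 1)).filter (fun ij => 1 ≤ ij.1 + ij.2),
          p ^ (ij.1 + ij.2) * (cnt G ij.1 x u * cnt G ij.2 y u) := by
  have hw : Valid (fun _ : Sym2 V => p) := valid_const h0 h1
  refine (Pr_mono hw (B := fun ω => ∃ u ∈ S, ∃ ij ∈ (range ((eIn G S).card + 1) ×ˢ
        range ((eIn G S).card + 1)).filter (fun ij => 1 ≤ ij.1 + ij.2),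
      ∃ q ∈ G.finsetWalkLength ij.1 x u ×ˢ G.finsetWalkLength ij.2 y u,
        (q.1.edges ++ q.2.edges).Nodup ∧ (q.1.edges ++ q.2.edges).toFinset ⊆ ω ∧
          Conn (ω \ (q.1.edges ++ q.2.edges).toFinset) o u)
    fun ω hω hc => ?_).trans ((Pr_exists_le hw _ _).trans (sum_le_sum fun u _ => ?_))
  · obtain ⟨w, hp, he, hl⟩ := exists_path (G := G) (fun e he => eIn_edge (hω he))
      (hc.1.symm.trans hc.2)
    obtain ⟨u, hu, hcu⟩ := path_hit w hc.1
    have huS : u ∈ S := Conn.induction (P := fun v => v ∈ S) ho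
      (fun a b _ _ hab _ => (mk_mem_eIn.1 (hω (mem_sdiff.1 hab).1)).2.1) hcu
    have hspec := w.take_spec hu
    have hperm : ((w.takeUntil u hu).edges ++ (w.dropUntil u hu).reverse.edges).Perm w.edges := by
      conv_rhs => rw [← hspec]
      rw [SimpleGraph.Walk.edges_append, SimpleGraph.Walk.edges_reverse]
      exact (List.reverse_perm _).append_left _
    have hlen : (w.takeUntil u hu).length + (w.dropUntil u hu).reverse.length = w.length := by
      conv_rhs => rw [← hspec]
      rw [SimpleGraph.Walk.length_append, SimpleGraph.Walk.length_reverse]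
    have hpos : w.length ≠ 0 := fun h => hxy (w.eq_of_length_eq_zero h)
    have hU := card_le_card hω
    refine ⟨u, huS, ((w.takeUntil u hu).length, (w.dropUntil u hu).reverse.length),
      mem_filter.2 ⟨mem_product.2 ⟨mem_range.2 (by simp only; omega),
        mem_range.2 (by simp only; omega)⟩, by simp only; omega⟩,
      (w.takeUntil u hu, (w.dropUntil u hu).reverse),
      mem_product.2 ⟨SimpleGraph.mem_finsetWalkLength_iff.2 rfl,
        SimpleGraph.mem_finsetWalkLength_iff.2 rfl⟩,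
      hperm.nodup_iff.2 hp.isTrail.edges_nodup, ?_⟩
    simp only
    rw [List.toFinset_eq_of_perm _ _ hperm]
    exact ⟨fun e h => he e (List.mem_toFinset.1 h), hcu⟩
  · rw [mul_sum]
    refine (Pr_exists_le hw _ _).trans (sum_le_sum fun ij _ => ?_)
    refine (Pr_exists_le hw _ _).trans ((sum_le_card_nsmul _ _
      (tau G p S o u * p ^ (ij.1 + ij.2)) fun q hq => ?_).trans (le_of_eq ?_))
    · refine (path_one_le h0 h1 S o u _).trans (le_of_eq ?_)
      rw [List.length_append, SimpleGraph.Walk.length_edges, SimpleGraph.Walk.length_edges,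
        SimpleGraph.mem_finsetWalkLength_iff.1 (mem_product.1 hq).1,
        SimpleGraph.mem_finsetWalkLength_iff.1 (mem_product.1 hq).2]
    · rw [nsmul_eq_mul, card_product, cnt, cnt]
      push_cast
      ring

end Vale.Agent.P165
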