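import Vale.Agent.P165.Base

/-! Walk counts from the spectral bound. -/

namespace Vale.Agent.P165

open Finset Vale.Agent.P151 Vale.Agent.P151G

variable {V : Type*} [DecidableEq V] {G : SimpleGraph V} [G.LocallyFinite] {l : ℝ} {d : ℕ}

/-- square sums are bounded by `B` -/
def SpecL2 (f : V → ℝ) (B : ℝ) : Prop := ∀ S : Finset V, ∑ x ∈ S, f x ^ 2 ≤ B

omit [DecidableEq V] in
theorem SpecL2.mono {f g : V → ℝ} {B : ℝ} (h : SpecL2 g B) (h0 : ∀ x, 0 ≤ f x)
    (h1 : ∀ x, f x ≤ g x) : SpecL2 f B :=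
  fun S => (sum_le_sum fun x _ => pow_le_pow_left₀ (h0 x) (h1 x) 2).trans (h S)

theorem spec_sym (S : Finset V) (F : V → V → ℝ) :
    ∑ x ∈ S, ∑ y ∈ G.neighborFinset x ∩ S, F x y = ∑ x ∈ S, ∑ y ∈ G.neighborFinset x ∩ S, F y x := by
  refine sum_comm' fun x y => ?_
  simp only [mem_inter, SimpleGraph.mem_neighborFinset]
  exact ⟨fun h => ⟨⟨h.2.1.symm, h.1⟩, h.2.2⟩, fun h => ⟨h.1.2, h.1.1.symm, h.2⟩⟩

theorem spec_pol (h : Spec G l) (S : Finset V) (f g : V → ℝ) :
    2 * ∑ x ∈ S, ∑ y ∈ G.neighborFinset x ∩ S, f x * g y ≤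
      l * (∑ x ∈ S, f x ^ 2 + ∑ x ∈ S, g x ^ 2) := by
  have h1 := h S (fun x => f x + g x)
  have h2 := h S (fun x => |f x - g x|)
  have h3 := spec_sym (G := G) S (fun x y => f x * g y)
  have h4 : 2 * (∑ x ∈ S, ∑ y ∈ G.neighborFinset x ∩ S, f x * g y +
      ∑ x ∈ S, ∑ y ∈ G.neighborFinset x ∩ S, f y * g x) ≤
      ∑ x ∈ S, ∑ y ∈ G.neighborFinset x ∩ S, (f x + g x) * (f y + g y) +
        ∑ x ∈ S, ∑ y ∈ G.neighborFinset x ∩ S, |f x - g x| * |f y - g y| := by
    simp only [← sum_add_distrib, mul_sum]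
    refine sum_le_sum fun x _ => sum_le_sum fun y _ => ?_
    have h5 := neg_abs_le ((f x - g x) * (f y - g y))
    rw [abs_mul] at h5
    nlinarith
  have h5 : ∑ x ∈ S, (f x + g x) ^ 2 + ∑ x ∈ S, |f x - g x| ^ 2 =
      2 * (∑ x ∈ S, f x ^ 2 + ∑ x ∈ S, g x ^ 2) := by
    simp only [← sum_add_distrib, mul_sum]
    refine sum_congr rfl fun x _ => ?_
    rw [sq_abs]
    ring
  have h6 : l * ∑ x ∈ S, (f x + g x) ^ 2 + l * ∑ x ∈ S, |f x - g x| ^ 2 =
      2 * (l * (∑ x ∈ S, f x ^ 2 + ∑ x ∈ S, g x ^ 2)) := by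
    rw [← mul_add, h5]
    ring
  linarith

theorem spec_bil (hl : 0 ≤ l) (h : Spec G l) (S : Finset V) (f : V → ℝ) {g : V → ℝ} {B : ℝ}
    (hg : SpecL2 g B) :
    2 * ∑ x ∈ S, f x * ∑ y ∈ G.neighborFinset x, g y ≤ l * (∑ x ∈ S, f x ^ 2 + B) := by
  obtain ⟨S', hS'⟩ : ∃ S', S' = S ∪ S.biUnion fun x => G.neighborFinset x := ⟨_, rfl⟩
  have hs : S ⊆ S' := hS' ▸ subset_union_left
  have h1 := spec_pol h S' (fun x => if x ∈ S then f x else 0) g
  have h2 : ∑ x ∈ S', ∑ y ∈ G.neighborFinset x ∩ S', (if x ∈ S then f x else 0) * g y =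
      ∑ x ∈ S, f x * ∑ y ∈ G.neighborFinset x, g y := by
    rw [← sum_subset hs fun x _ hx => by simp [hx]]
    refine sum_congr rfl fun x hx => ?_
    have h3 : G.neighborFinset x ⊆ S' :=
      hS' ▸ (subset_biUnion_of_mem (fun x => G.neighborFinset x) hx).trans subset_union_right
    rw [inter_eq_left.2 h3, if_pos hx, mul_sum]
  have h3 : ∑ x ∈ S', (if x ∈ S then f x else 0) ^ 2 = ∑ x ∈ S, f x ^ 2 := by
    rw [← sum_subset hs fun x _ hx => by simp [hx]]
    exact sum_congr rfl fun x hx => by rw [if_pos hx]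
  rw [h2, h3] at h1
  exact h1.trans (mul_le_mul_of_nonneg_left (by linarith [hg S']) hl)

theorem spec_step (hl : 0 ≤ l) (h : Spec G l) {g : V → ℝ} {B : ℝ} (hg : SpecL2 g B) :
    SpecL2 (fun x => ∑ y ∈ G.neighborFinset x, g y) (l ^ 2 * B) := by
  intro S
  obtain ⟨A, hA⟩ : ∃ A, A = ∑ x ∈ S, (∑ y ∈ G.neighborFinset x, g y) ^ 2 := ⟨_, rfl⟩
  have key : ∀ t : ℝ, 2 * (t * A) ≤ l * (t ^ 2 * A + B) := by
    intro t
    have h1 := spec_bil hl h S (fun x => t * ∑ y ∈ G.neighborFinset x, g y) hg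
    have h2 : ∑ x ∈ S, (t * ∑ y ∈ G.neighborFinset x, g y) * ∑ y ∈ G.neighborFinset x, g y =
        t * A := by
      rw [hA, mul_sum]
      exact sum_congr rfl fun x _ => by ring
    have h3 : ∑ x ∈ S, (t * ∑ y ∈ G.neighborFinset x, g y) ^ 2 = t ^ 2 * A := by
      rw [hA, mul_sum]
      exact sum_congr rfl fun x _ => by ring
    rwa [h2, h3] at h1
  beta_reduce
  rw [← hA]
  rcases hl.eq_or_lt with h0 | h0
  · have h1 := key 1
    rw [← h0] at h1 ⊢
    linarith
  · have h1 := mul_le_mul_of_nonneg_left (key l⁻¹) hl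
    have h2 : l * (2 * (l⁻¹ * A)) = 2 * A := by field_simp
    have h3 : l * (l * (l⁻¹ ^ 2 * A + B)) = A + l ^ 2 * B := by field_simp
    rw [h2, h3] at h1
    linarith

theorem spec_cnt_nonneg (n : ℕ) (x y : V) : 0 ≤ cnt G n x y := Nat.cast_nonneg _

theorem spec_cnt_zero (x y : V) : cnt G 0 x y = if x = y then 1 else 0 := by
  unfold cnt
  split_ifs with h
  · subst h
    simp [SimpleGraph.finsetWalkLength]
  · simp [SimpleGraph.finsetWalkLength, h]

theorem spec_cnt_succ (n : ℕ) (x u : V) :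
    cnt G (n + 1) x u ≤ ∑ y ∈ G.neighborFinset x, cnt G n y u := by
  unfold cnt
  rw [sum_subtype (p := fun y => y ∈ G.neighborSet x) (F := inferInstance) _ (fun y => by simp),
    ← Nat.cast_sum, Nat.cast_le, SimpleGraph.finsetWalkLength]
  refine card_biUnion_le.trans (le_of_eq (sum_congr rfl fun y _ => card_map _))

omit [DecidableEq V] in
theorem spec_cs (S : Finset V) {f g : V → ℝ} {A B c : ℝ} (hf : ∑ x ∈ S, f x ^ 2 ≤ A)
    (hg : ∑ x ∈ S, g x ^ 2 ≤ B) (hc : 0 ≤ c) (h : A * B = c ^ 2) : ∑ x ∈ S, f x * g x ≤ c := by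
  refine le_of_sq_le_sq ((sum_mul_sq_le_sq_mul_sq S f g).trans ?_) hc
  rw [← h]
  have h1 : 0 ≤ ∑ x ∈ S, f x ^ 2 := sum_nonneg fun x _ => sq_nonneg _
  exact mul_le_mul hf hg (sum_nonneg fun x _ => sq_nonneg _) (h1.trans hf)

theorem spec_ind (F : Finset V) : SpecL2 (fun x => if x ∈ F then (1 : ℝ) else 0) F.card := by
  intro S
  rw [sum_congr rfl (g := fun x => if x ∈ F then (1 : ℝ) else 0) fun x _ => by
    by_cases hx : x ∈ F <;> simp [hx], sum_ite_mem, sum_const, nsmul_eq_mul, mul_one, Nat.cast_le]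
  exact card_le_card inter_subset_right

theorem sum_cnt_le (hl : 0 ≤ l) (h : Spec G l) (F : Finset V) (n : ℕ) :
    ∑ x ∈ F, ∑ y ∈ F, cnt G n x y ≤ l ^ n * F.card := by
  have key : ∀ n : ℕ, SpecL2 (fun x => ∑ y ∈ F, cnt G n x y) ((l ^ 2) ^ n * F.card) := by
    intro n
    induction n with
    | zero =>
      rw [pow_zero, one_mul]
      refine (spec_ind F).mono (fun x => sum_nonneg fun y _ => spec_cnt_nonneg _ _ _)
        fun x => le_of_eq ?_
      simp only [spec_cnt_zero, sum_ite_eq]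
    | succ n ih =>
      rw [pow_succ', mul_assoc]
      refine (spec_step hl h ih).mono (fun x => sum_nonneg fun y _ => spec_cnt_nonneg _ _ _)
        fun x => ?_
      rw [sum_comm]
      exact sum_le_sum fun y _ => spec_cnt_succ n x y
  have h1 := spec_cs F (f := fun _ => (1 : ℝ)) (A := F.card) (c := l ^ n * F.card) (by simp)
    (key n F) (by positivity) (by ring)
  simpa only [one_mul] using h1

theorem spec_nb (hl : 0 ≤ l) (h : Spec G l) (hd : ∀ v, G.degree v = d) (u : V) (k : ℕ) :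
    SpecL2 (fun x => ∑ y ∈ G.neighborFinset x, cnt G k y u) ((l ^ 2) ^ k * d) := by
  induction k with
  | zero =>
    rw [pow_zero, one_mul, ← hd u, ← SimpleGraph.card_neighborFinset_eq_degree]
    refine (spec_ind _).mono (fun x => sum_nonneg fun y _ => spec_cnt_nonneg _ _ _)
      fun x => le_of_eq ?_
    simp only [spec_cnt_zero, sum_ite_eq']
    exact if_congr (by simp [G.adj_comm]) rfl rfl
  | succ k ih =>
    rw [pow_succ', mul_assoc]
    exact spec_step hl h (ih.mono (fun x => spec_cnt_nonneg _ _ _) fun x => spec_cnt_succ k x u)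

theorem loop_le (hl : 0 ≤ l) (h : Spec G l) (hd : ∀ v, G.degree v = d) (S : Finset V) (u : V)
    (i j m : ℕ) (hm : i + j = m + 1) :
    ∑ x ∈ S, ∑ y ∈ G.neighborFinset x, cnt G i x u * cnt G j y u ≤ d * l ^ m := by
  have hc : ∀ k, SpecL2 (fun x => cnt G (k + 1) x u) ((l ^ 2) ^ k * d) := fun k =>
    (spec_nb hl h hd u k).mono (fun x => spec_cnt_nonneg _ _ _) fun x => spec_cnt_succ k x u
  simp only [← mul_sum]
  cases i with
  | zero =>
    have hj : j = m + 1 := by omega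
    subst hj
    have h1 := spec_cs (G.neighborFinset u) (f := fun _ => (1 : ℝ)) (A := d) (c := d * l ^ m)
      (by simp [hd u]) (hc m (G.neighborFinset u)) (by positivity) (by ring)
    simp only [one_mul] at h1
    simp only [spec_cnt_zero, ite_mul, one_mul, zero_mul, sum_ite_eq']
    split_ifs
    · exact h1
    · positivity
  | succ i =>
    have hj : m = i + j := by omega
    subst hj
    exact spec_cs S (hc i S) (spec_nb hl h hd u j S) (by positivity) (by ring)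

end Vale.Agent.P165
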