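import Vale.Agent.P165.Meas
import Vale.Agent.P165.Spec
import Vale.Agent.P165.Path
import Vale.Agent.P151G.MissB

/-! No uniqueness below the inverse spectral bound. -/

namespace Vale.Agent.P165

open Finset Vale.Agent.P151 Vale.Agent.P151G MeasureTheory unitInterval

theorem sq_sum_le {Ω ι : Type*} [MeasurableSpace Ω] (μ : Measure Ω) [IsProbabilityMeasure μ]
    (F : Finset ι) (J : ι → Set Ω) (hJ : ∀ i, MeasurableSet (J i)) :
    (∑ i ∈ F, μ.real (J i)) ^ 2 ≤ ∑ i ∈ F, ∑ j ∈ F, μ.real (J i ∩ J j) := by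
  set t := ∑ i ∈ F, μ.real (J i) with ht
  have hi : ∀ A : Set Ω, MeasurableSet A → Integrable (A.indicator fun _ => (1 : ℝ)) μ :=
    fun A hA => (integrable_const (1 : ℝ)).indicator hA
  have hv : ∀ A : Set Ω, MeasurableSet A → ∫ ω, A.indicator (fun _ => (1 : ℝ)) ω ∂μ = μ.real A :=
    fun A hA => by rw [integral_indicator_const _ hA]; simp
  have h1 : Integrable (fun ω => ∑ i ∈ F, (J i).indicator (fun _ => (1 : ℝ)) ω) μ :=
    integrable_finsetSum _ fun i _ => hi _ (hJ i)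
  have h2 : Integrable
      (fun ω => ∑ i ∈ F, ∑ j ∈ F, (J i ∩ J j).indicator (fun _ => (1 : ℝ)) ω) μ :=
    integrable_finsetSum _ fun i _ => integrable_finsetSum _ fun j _ => hi _ ((hJ i).inter (hJ j))
  have e1 : ∫ ω, ∑ i ∈ F, (J i).indicator (fun _ => (1 : ℝ)) ω ∂μ = t := by
    rw [integral_finsetSum _ fun i _ => hi _ (hJ i)]
    exact sum_congr rfl fun i _ => hv _ (hJ i)
  have e2 : ∫ ω, ∑ i ∈ F, ∑ j ∈ F, (J i ∩ J j).indicator (fun _ => (1 : ℝ)) ω ∂μ =
      ∑ i ∈ F, ∑ j ∈ F, μ.real (J i ∩ J j) := by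
    rw [integral_finsetSum _ fun i _ =>
      integrable_finsetSum _ fun j _ => hi _ ((hJ i).inter (hJ j))]
    refine sum_congr rfl fun i _ => ?_
    rw [integral_finsetSum _ fun j _ => hi _ ((hJ i).inter (hJ j))]
    exact sum_congr rfl fun j _ => hv _ ((hJ i).inter (hJ j))
  have hpt : ∀ ω, 2 * t * (∑ i ∈ F, (J i).indicator (fun _ => (1 : ℝ)) ω) - t ^ 2 ≤
      ∑ i ∈ F, ∑ j ∈ F, (J i ∩ J j).indicator (fun _ => (1 : ℝ)) ω := by
    intro ω
    have : ∑ i ∈ F, ∑ j ∈ F, (J i ∩ J j).indicator (fun _ => (1 : ℝ)) ω =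
        (∑ i ∈ F, (J i).indicator (fun _ => (1 : ℝ)) ω) ^ 2 := by
      rw [sq, sum_mul_sum]
      refine sum_congr rfl fun i _ => sum_congr rfl fun j _ => ?_
      by_cases a : ω ∈ J i <;> by_cases b : ω ∈ J j <;> simp [Set.indicator, a, b]
    rw [this]
    nlinarith [sq_nonneg ((∑ i ∈ F, (J i).indicator (fun _ => (1 : ℝ)) ω) - t)]
  have h3 := integral_mono ((h1.const_mul (2 * t)).sub (integrable_const (t ^ 2))) h2 hpt
  rw [e2] at h3
  have h4 : ∫ ω, (2 * t * (∑ i ∈ F, (J i).indicator (fun _ => (1 : ℝ)) ω) - t ^ 2) ∂μ =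
      t ^ 2 := by
    rw [integral_sub (h1.const_mul (2 * t)) (integrable_const (t ^ 2)), integral_const_mul, e1]
    simp
    ring
  rw [← h4]
  exact h3

variable {V : Type*} [DecidableEq V] {G : SimpleGraph V} [G.LocallyFinite]

theorem orbit_infinite [Infinite V] (hc : G.Connected)
    (hq : ∃ F : Finset V, ∀ v, ∃ γ : G ≃g G, ∃ u ∈ F, γ u = v) (o : V) :
    {x | ∃ γ : G ≃g G, γ o = x}.Infinite := by
  intro hfin
  obtain ⟨F, hF⟩ := hq
  choose n hn using fun u => exists_mem_ball hc o u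
  have hsub : (Set.univ : Set V) ⊆
      ↑(hfin.toFinset.biUnion fun x => ball G x (F.sup n)) := by
    intro v _
    obtain ⟨γ, u, hu, rfl⟩ := hF v
    rw [mem_coe, mem_biUnion]
    exact ⟨γ o, hfin.mem_toFinset.2 ⟨γ, rfl⟩, ball_aut γ (ball_mono _ (le_sup hu) (hn u))⟩
  exact Set.infinite_univ ((finite_toSet _).subset hsub)

theorem not_uniq [Infinite V] (hc : G.Connected)
    (hq : ∃ F : Finset V, ∀ v, ∃ γ : G ≃g G, ∃ u ∈ F, γ u = v) {l : ℝ} (hl : 0 ≤ l)
    (h : Spec G l) (p : I) (hr : (p : ℝ) * l < 1) : percMeasure G p (uniqEvent V) ≠ 1 := by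
  intro hu
  have := Bridge.countable hc
  have hprob : IsProbabilityMeasure (percMeasure G p) := by
    unfold percMeasure; infer_instance
  have h0 : (0 : ℝ) ≤ p := p.2.1
  have h1 : (p : ℝ) ≤ 1 := p.2.2
  have hpos : 0 < percMeasure G p (infEvent V) := by
    refine lt_of_lt_of_le ?_ (measure_mono (s := uniqEvent V) ?_)
    · rw [hu]; exact one_pos
    · rintro ω ⟨x, hx, -⟩; exact ⟨x, hx⟩
  obtain ⟨o, c, hc0, hθ⟩ := perc_of_measure_pos hc p hpos
  set r := (p : ℝ) * l with hrdef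
  have hr0 : 0 ≤ r := mul_nonneg h0 hl
  obtain ⟨N, hN⟩ := exists_nat_gt (1 / (c ^ 2 * (1 - r)))
  obtain ⟨F, hF, hcard⟩ := (orbit_infinite hc hq o).exists_subset_card_eq N
  set J : V → Set (Set (Sym2 V)) := fun x => {ω | (cluster ω x).Infinite} with hJ
  have hJc : ∀ x ∈ F, c ≤ (percMeasure G p).real (J x) := by
    intro x hx
    obtain ⟨γ, rfl⟩ := hF (mem_coe.2 hx)
    exact le_measure_inf p _ fun n => by rw [theta_aut h0 h1]; exact hθ n
  have hae : ∀ᵐ ω ∂(percMeasure G p), ω ∈ uniqEvent V :=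
    (mem_ae_iff_prob_eq_one meas_uniq).2 hu
  have hJJ : ∀ x y, (percMeasure G p).real (J x ∩ J y) ≤
      (percMeasure G p).real {ω | y ∈ cluster ω x} := by
    intro x y
    refine ENNReal.toReal_mono (measure_ne_top _ _) (measure_mono_ae ?_)
    filter_upwards [hae] with ω hω hxy
    obtain ⟨z, -, hz⟩ := hω
    have a1 := hz x hxy.1
    have a2 := hz y hxy.2
    show y ∈ cluster ω x
    rw [a1, ← a2]
    exact SimpleGraph.Reachable.refl y
  have hB : ∀ S : Finset V, ∑ x ∈ F, ∑ y ∈ F, tau G p S x y ≤ (F.card : ℝ) / (1 - r) := by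
    intro S
    calc ∑ x ∈ F, ∑ y ∈ F, tau G p S x y
        ≤ ∑ x ∈ F, ∑ y ∈ F, ∑ n ∈ range ((eIn G S).card + 1), (p : ℝ) ^ n * cnt G n x y :=
          sum_le_sum fun x _ => sum_le_sum fun y _ => tau_le h0 h1 S x y
      _ = ∑ n ∈ range ((eIn G S).card + 1), (p : ℝ) ^ n * ∑ x ∈ F, ∑ y ∈ F, cnt G n x y := by
          rw [sum_congr rfl fun x _ => sum_comm, sum_comm]
          simp only [mul_sum]
      _ ≤ ∑ n ∈ range ((eIn G S).card + 1), r ^ n * F.card := by
          refine sum_le_sum fun n _ => ?_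
          rw [hrdef, mul_pow, mul_assoc]
          exact mul_le_mul_of_nonneg_left (sum_cnt_le hl h F n) (pow_nonneg h0 n)
      _ = (∑ n ∈ range ((eIn G S).card + 1), r ^ n) * F.card := by rw [sum_mul]
      _ ≤ (1 - r)⁻¹ * F.card := by
          refine mul_le_mul_of_nonneg_right ?_ (Nat.cast_nonneg _)
          rw [← tsum_geometric_of_lt_one hr0 hr]
          exact (summable_geometric_of_lt_one hr0 hr).sum_le_tsum _ fun n _ => pow_nonneg hr0 n
      _ = (F.card : ℝ) / (1 - r) := by rw [div_eq_inv_mul]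
  have k1 := sum_conn_le hc p F hB
  have k2 := sq_sum_le (percMeasure G p) F J fun x => meas_inf x
  have k3 : ∑ x ∈ F, ∑ y ∈ F, (percMeasure G p).real (J x ∩ J y) ≤
      ∑ x ∈ F, ∑ y ∈ F, (percMeasure G p).real {ω | y ∈ cluster ω x} :=
    sum_le_sum fun x _ => sum_le_sum fun y _ => hJJ x y
  have k4 : (F.card : ℝ) * c ≤ ∑ x ∈ F, (percMeasure G p).real (J x) := by
    have := card_nsmul_le_sum F (fun x => (percMeasure G p).real (J x)) c hJc
    simpa [nsmul_eq_mul] using this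
  rw [hcard] at k1 k4
  have hr1 : 0 < 1 - r := by linarith
  have hcr : 0 < c ^ 2 * (1 - r) := by positivity
  have hN0 : (0 : ℝ) < N := lt_trans (by positivity) hN
  have k5 : ((N : ℝ) * c) ^ 2 ≤ (N : ℝ) / (1 - r) :=
    (pow_le_pow_left₀ (by positivity) k4 2).trans (k2.trans (k3.trans k1))
  rw [le_div_iff₀ hr1] at k5
  rw [div_lt_iff₀ hcr] at hN
  nlinarith [mul_lt_mul_of_pos_left hN hN0]

end Vale.Agent.P165
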