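import Vale.Agent.P165.Phi
import Vale.Agent.P165.Russo
import Vale.Agent.P165.Uniq
import Vale.Agent.P165.Cheeger
import Vale.Agent.P165.Pow

/-! Assembly. -/

namespace Vale.Agent.P165

open Finset Vale.Agent.P151 Vale.Agent.P151G

variable {V : Type*} [DecidableEq V] {G : SimpleGraph V} [G.LocallyFinite]

theorem main_spec [Infinite V] (hc : G.Connected)
    (hq : ∃ F : Finset V, ∀ v, ∃ γ : G ≃g G, ∃ u ∈ F, γ u = v) {d : ℕ} (hd : ∀ v, G.degree v = d)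
    {ρ : ℝ} (h0 : 0 ≤ ρ) (h : Spec G (ρ * d)) (hρ : 36 ≤ d * (1 - ρ) ^ 3) : pc G < pu G := by
  obtain ⟨ε, hε⟩ : ∃ ε, ε = 1 - ρ := ⟨_, rfl⟩
  have hρε : ρ = 1 - ε := by linarith
  rw [← hε] at hρ
  have hd0 : (0 : ℝ) ≤ d := Nat.cast_nonneg d
  have e1 : ε ≤ 1 := by linarith
  have e0 : 0 < ε := by
    by_contra hn
    have : ε ^ 3 ≤ 0 := Odd.pow_nonpos (by decide) (not_lt.1 hn)
    nlinarith
  have e3 : ε ^ 3 ≤ 1 := pow_le_one₀ e0.le e1
  have hd36 : (36 : ℝ) ≤ d := by nlinarith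
  have hdp : (0 : ℝ) < d := by linarith
  have hl : 0 ≤ ρ * d := mul_nonneg h0 hd0
  have key : ∀ a : ℝ, a / d * (ρ * d) = a * (1 - ε) := fun a => by
    rw [hρε]; field_simp
  obtain ⟨o⟩ := hc.nonempty
  have hp0 : 0 ≤ (1 + ε / 2) / d := by positivity
  have hle : ∀ a : ℝ, a ≤ 2 → a / d ≤ 1 := fun a ha => by
    rw [div_le_one hdp]; linarith
  have hr : (1 + ε / 2) / d * (ρ * d) < 1 := by rw [key]; nlinarith
  have hp : 1 + (1 + ε / 2) / d * (2 * ((1 + ε / 2) / d) * d /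
      (1 - (1 + ε / 2) / d * (ρ * d)) ^ 2) ≤ (1 + ε / 2) / d * d := by
    rw [key]
    have a1 : ε / 2 ≤ 1 - (1 + ε / 2) * (1 - ε) := by nlinarith
    have a2 : (ε / 2) ^ 2 ≤ (1 - (1 + ε / 2) * (1 - ε)) ^ 2 := pow_le_pow_left₀ (by positivity) a1 2
    have a3 : 2 * ((1 + ε / 2) / d) * d / (1 - (1 + ε / 2) * (1 - ε)) ^ 2 ≤ 3 / (ε / 2) ^ 2 := by
      refine div_le_div₀ (by norm_num) ?_ (by positivity) a2
      rw [mul_assoc, div_mul_cancel₀ _ hdp.ne']; linarith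
    have a4 : (1 + ε / 2) / d ≤ (3 / 2) / d := div_le_div_of_nonneg_right (by linarith) hd0
    have a5 : (3 / 2) / (d : ℝ) * (3 / (ε / 2) ^ 2) ≤ ε / 2 := by
      rw [div_mul_div_comm, div_le_iff₀ (by positivity)]
      nlinarith
    have a6 := mul_le_mul a4 a3 (by positivity) (by positivity)
    rw [div_mul_cancel₀ _ hdp.ne']
    linarith
  have hpsi := fun S (hS : o ∈ S) => one_le_psi hp0 (hle _ (by linarith)) hl h hd hr hp S hS
  let q : unitInterval := ⟨(1 + 3 * ε / 4) / d, by positivity, hle _ (by linarith)⟩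
  let q' : unitInterval := ⟨(1 + ε) / d, by positivity, hle _ (by linarith)⟩
  have hperc : Perc G (q : ℝ) o := perc_of_psi hp0
    (div_lt_div_of_pos_right (by linarith) hdp) q.2.2 hpsi
  have h1 : pc G ≤ q := sInf_le (measure_pos_of_perc q o hperc)
  have h2 : q < q' := by
    change (1 + 3 * ε / 4) / (d : ℝ) < (1 + ε) / d
    exact div_lt_div_of_pos_right (by linarith) hdp
  have h3 : q' ≤ pu G := by
    refine le_sInf fun t ht => ?_
    by_contra hn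
    have ht' : (t : ℝ) ≤ (1 + ε) / d := le_of_lt (not_le.1 hn)
    refine not_uniq hc hq hl h t ?_ ht
    have := mul_le_mul_of_nonneg_right ht' hl
    rw [key] at this
    nlinarith
  exact lt_of_le_of_lt h1 (lt_of_lt_of_le h2 h3)

theorem main_iso [Infinite V] (hc : G.Connected)
    (hq : ∃ F : Finset V, ∀ v, ∃ γ : G ≃g G, ∃ u ∈ F, γ u = v) {d : ℕ} (hd : ∀ v, G.degree v = d)
    {Φ : ℝ} (h0 : 0 ≤ Φ)
    (h : ∀ A : Finset V, Φ * d * A.card ≤ ∑ x ∈ A, ((G.neighborFinset x \ A).card : ℝ))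
    (hΦ : 20000 ≤ d * Φ ^ 6) : pc G < pu G := by
  obtain ⟨o⟩ := hc.nonempty
  have hd0 : (0 : ℝ) ≤ d := Nat.cast_nonneg d
  have hdp : (0 : ℝ) < d := by
    rcases hd0.eq_or_lt with h1 | h1
    · rw [← h1] at hΦ; norm_num at hΦ
    · exact h1
  have h1 : Φ ≤ 1 := by
    have a := h {o}
    have b : ((G.neighborFinset o \ {o}).card : ℝ) ≤ d := by
      rw [← hd o, ← G.card_neighborFinset_eq_degree]
      exact_mod_cast card_le_card sdiff_subset
    simp only [card_singleton, Nat.cast_one, mul_one, sum_singleton] at a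
    nlinarith
  refine main_spec hc hq hd (ρ := 1 - Φ ^ 2 / 8) (by nlinarith) (cheeger hd h0 h) ?_
  have : (1 - (1 - Φ ^ 2 / 8)) ^ 3 = Φ ^ 6 / 512 := by ring
  rw [this]
  linarith

theorem main_pow [Infinite V] (hc : G.Connected) (ht : ∀ x y, ∃ γ : G ≃g G, γ x = y)
    (hh : ∃ h : ℝ, 0 < h ∧ ∀ A : Finset V, A.Nonempty →
      h * A.card ≤ ({y | y ∉ A ∧ ∃ x ∈ A, G.Adj x y}.ncard : ℝ)) :
    ∃ k0 : ℕ, ∀ k, k0 ≤ k → pc (powG G k) < pu (powG G k) := by
  obtain ⟨h, h0, hh⟩ := hh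
  obtain ⟨o⟩ := hc.nonempty
  set Φ : ℝ := h / (G.degree o + 1) ^ 2 with hΦ
  have hΦ0 : 0 < Φ := by positivity
  obtain ⟨k0, hk0⟩ := exists_nat_ge (20000 / Φ ^ 6)
  refine ⟨k0 + 1, fun k hk => ?_⟩
  obtain ⟨j, rfl⟩ : ∃ j, k = j + 1 := ⟨k - 1, by omega⟩
  have hmem : ∀ x y, (powG G (j + 1)).Adj x y ↔ y ∈ (ball G x (j + 1)).erase x := fun x y => by
    rw [mem_erase, mem_ball_iff hc]
    exact ⟨fun a => ⟨a.1.symm, a.2⟩, fun a => ⟨a.1.symm, a.2⟩⟩
  letI : (powG G (j + 1)).LocallyFinite := fun x =>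
    Fintype.ofFinset ((ball G x (j + 1)).erase x) fun y => (hmem x y).symm
  have hN : ∀ x, (powG G (j + 1)).neighborFinset x = (ball G x (j + 1)).erase x := fun x => by
    ext y; rw [SimpleGraph.mem_neighborFinset, hmem]
  have hb := le_card_ball hc o (j + 1)
  have hd : ∀ v, (powG G (j + 1)).degree v = (ball G o (j + 1)).card - 1 := fun v => by
    rw [← SimpleGraph.card_neighborFinset_eq_degree, hN, card_erase_of_mem (mem_ball_self _ _),
      card_ball_eq ht v o]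
  have hdk : (k0 : ℝ) ≤ (((ball G o (j + 1)).card - 1 : ℕ) : ℝ) := by
    exact_mod_cast (by omega : k0 ≤ (ball G o (j + 1)).card - 1)
  refine main_iso (pow_connected hc (by omega)) ⟨{o}, fun v => ?_⟩ hd hΦ0.le (fun A => ?_) ?_
  · obtain ⟨γ, hγ⟩ := ht o v
    obtain ⟨γ', hγ'⟩ := pow_aut hc (j + 1) γ
    exact ⟨γ', o, mem_singleton_self o, (hγ' o).trans hγ⟩
  · have a := pow_iso ht o h0.le hh j A
    have b : ∑ x ∈ A, ((ball G x (j + 1) \ A).card : ℝ) =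
        ∑ x ∈ A, (((powG G (j + 1)).neighborFinset x \ A).card : ℝ) := by
      refine sum_congr rfl fun x hx => ?_
      rw [hN]
      congr 2
      ext y
      simp only [mem_sdiff, mem_erase]
      exact ⟨fun c => ⟨⟨fun e => c.2 (e ▸ hx), c.1⟩, c.2⟩, fun c => ⟨c.1.2, c.2⟩⟩
    rw [← b]
    refine le_trans ?_ a
    have c : ((((ball G o (j + 1)).card - 1 : ℕ)) : ℝ) ≤ (ball G o (j + 1)).card := by
      exact_mod_cast Nat.sub_le _ _
    exact mul_le_mul_of_nonneg_right (mul_le_mul_of_nonneg_left c hΦ0.le) (Nat.cast_nonneg _)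
  · have := (div_le_iff₀ (pow_pos hΦ0 6)).1 (hk0.trans hdk)
    exact this

end Vale.Agent.P165
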