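import Vale.Agent.P165.Base

/-! Measurability and infinite volume facts. -/

namespace Vale.Agent.P165

open Finset Vale.Agent.P151 Vale.Agent.P151G MeasureTheory unitInterval

variable {V : Type*} [DecidableEq V] {G : SimpleGraph V} [G.LocallyFinite]

omit [DecidableEq V] in
theorem meas_conn [Countable V] (x y : V) : MeasurableSet {ω : Set (Sym2 V) | y ∈ cluster ω x} := by
  classical
  have h : {ω : Set (Sym2 V) | y ∈ cluster ω x} =
      ⋃ U : Finset (Sym2 V), {ω : Set (Sym2 V) | Conn (tr U ω) x y} := by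
    ext ω
    simp only [Set.mem_ofPred_eq, Set.mem_iUnion]
    constructor
    · intro hy
      obtain ⟨ω0, h0, hc⟩ := exists_conn_of_reachable hy
      exact ⟨ω0, hc.mono fun e he => mem_tr.2 ⟨he, h0 e he⟩⟩
    · rintro ⟨U, hU⟩
      exact reachable_of_conn_tr hU
  rw [h]
  exact MeasurableSet.iUnion fun U => measurableSet_tr U fun ξ => Conn ξ x y

omit [DecidableEq V] in
theorem meas_inf [Countable V] (x : V) :
    MeasurableSet {ω : Set (Sym2 V) | (cluster ω x).Infinite} := by
  have h : {ω : Set (Sym2 V) | (cluster ω x).Infinite} =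
      ⋂ S : Finset V, ⋃ y : V, ⋃ _ : y ∉ S, {ω : Set (Sym2 V) | y ∈ cluster ω x} := by
    ext ω
    simp only [Set.mem_ofPred_eq, Set.mem_iInter, Set.mem_iUnion, exists_prop]
    constructor
    · intro hi S
      obtain ⟨y, h1, h2⟩ := hi.exists_notMem_finset S
      exact ⟨y, h2, h1⟩
    · intro hS hfin
      obtain ⟨y, h1, h2⟩ := hS hfin.toFinset
      exact h1 (hfin.mem_toFinset.2 h2)
  rw [h]
  exact MeasurableSet.iInter fun S => MeasurableSet.iUnion fun y =>
    MeasurableSet.iUnion fun _ => meas_conn x y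

omit [DecidableEq V] in
theorem Meas.cluster_eq_iff (ω : Set (Sym2 V)) (x y : V) :
    cluster ω y = cluster ω x ↔ y ∈ cluster ω x := by
  constructor
  · intro h
    rw [← h]
    exact SimpleGraph.Reachable.refl y
  · intro h
    ext z
    exact ⟨fun hz => SimpleGraph.Reachable.trans h hz,
      fun hz => SimpleGraph.Reachable.trans (SimpleGraph.Reachable.symm h) hz⟩

omit [DecidableEq V] in
theorem meas_uniq [Countable V] : MeasurableSet (uniqEvent V) := by
  have h : uniqEvent V = ⋃ x : V, ({ω : Set (Sym2 V) | (cluster ω x).Infinite} ∩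
      ⋂ y : V, ({ω : Set (Sym2 V) | (cluster ω y).Infinite}ᶜ ∪ {ω | y ∈ cluster ω x})) := by
    ext ω
    simp only [uniqEvent, Set.mem_ofPred_eq, Set.mem_iUnion, Set.mem_inter_iff, Set.mem_iInter,
      Set.mem_union, Set.mem_compl_iff, Meas.cluster_eq_iff, imp_iff_not_or]
  rw [h]
  exact MeasurableSet.iUnion fun x => (meas_inf x).inter
    (MeasurableSet.iInter fun y => (meas_inf y).compl.union (meas_conn x y))

theorem le_measure_inf (p : I) (o : V) {c : ℝ} (h : ∀ n, c ≤ theta G p o n) :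
    c ≤ (percMeasure G p).real {ω | (cluster ω o).Infinite} := by
  classical
  set E : ℕ → Set (Set (Sym2 V)) := fun n =>
    {ω | ∃ b ∈ sph G o n, Conn (tr (eIn G (ball G o n)) ω) o b} with hE
  have hEm : ∀ n, MeasurableSet (E n) := fun n =>
    measurableSet_tr (eIn G (ball G o n)) (fun ξ => ∃ b ∈ sph G o n, Conn ξ o b)
  have hEc : ∀ n, ENNReal.ofReal c ≤ percMeasure G p (E n) := by
    intro n
    have := measure_tr (u := G.edgeSet) (U := eIn G (ball G o n))
      (fun e he => eIn_edge he) p (fun ξ => ∃ b ∈ sph G o n, Conn ξ o b)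
    unfold percMeasure
    rw [hE]
    simp only []
    rw [this]
    exact ENNReal.ofReal_le_ofReal (h n)
  set F : ℕ → Set (Set (Sym2 V)) := fun n => ⋃ k, ⋃ _ : n ≤ k, E k with hF
  have hFm : ∀ n, MeasurableSet (F n) := fun n =>
    MeasurableSet.iUnion fun k => MeasurableSet.iUnion fun _ => hEm k
  have hanti : Antitone F := fun n n' hn ω hω => by
    simp only [hF, Set.mem_iUnion] at hω ⊢
    obtain ⟨k, hk, h⟩ := hω
    exact ⟨k, hn.trans hk, h⟩
  have hI : ENNReal.ofReal c ≤ percMeasure G p (⋂ n, F n) := by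
    rw [hanti.measure_iInter (fun n => (hFm n).nullMeasurableSet)
      ⟨0, by unfold percMeasure; exact measure_ne_top _ _⟩]
    refine le_iInf fun n => (hEc n).trans (measure_mono ?_)
    intro ω hω
    simp only [hF, Set.mem_iUnion]
    exact ⟨n, le_rfl, hω⟩
  have hfin : percMeasure G p {ω | (cluster ω o).Infinite} ≠ ⊤ := by
    unfold percMeasure; exact measure_ne_top _ _
  rw [Measure.real, ← ENNReal.ofReal_le_iff_le_toReal hfin]
  refine hI.trans (measure_mono ?_)
  intro ω hω hfin
  obtain ⟨M, hM⟩ := (hfin.image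
    (fun y : V => if h : ∃ n, y ∈ ball G o n then Nat.find h else 0)).bddAbove
  have := Set.mem_iInter.1 hω (M + 1)
  simp only [hF, Set.mem_iUnion] at this
  obtain ⟨k, hk, b, hb, hcb⟩ := this
  have hex : ∃ n, b ∈ ball G o n := ⟨k, (mem_sph.1 hb).1⟩
  have h1 := hM ⟨b, reachable_of_conn_tr hcb, rfl⟩
  simp only [dif_pos hex] at h1
  exact notMem_ball_of_sph hb (show Nat.find hex < k by omega) (Nat.find_spec hex)

theorem Meas.exists_thick (hc : G.Connected) {F : Finset V} {x : V} (hx : x ∈ F)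
    (ω0 : Finset (Sym2 V)) (h0 : ∀ e ∈ ω0, e ∈ G.edgeSet) : ∃ n, ω0 ⊆ eIn G (thick G F n) := by
  induction ω0 using Finset.induction_on with
  | empty => exact ⟨0, empty_subset _⟩
  | insert e s _ ih =>
    obtain ⟨n, hn⟩ := ih fun e' he' => h0 e' (mem_insert_of_mem he')
    have he := h0 e (mem_insert_self e s)
    induction e using Sym2.ind with
    | _ a b =>
      obtain ⟨i, hi⟩ := exists_mem_ball hc x a
      obtain ⟨j, hj⟩ := exists_mem_ball hc x b
      refine ⟨n + i + j, insert_subset (mk_mem_eIn.2 ⟨?_, ?_, he⟩)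
        (hn.trans (eIn_mono (thick_mono F (by omega))))⟩
      · exact mem_thick.2 ⟨x, hx, ball_mono x (by omega) hi⟩
      · exact mem_thick.2 ⟨x, hx, ball_mono x (by omega) hj⟩

theorem Meas.tendsto_tau (hc : G.Connected) (p : I) {F : Finset V} {x : V} (hx : x ∈ F) (y : V) :
    Filter.Tendsto (fun n => tau G p (thick G F n) x y) Filter.atTop
      (nhds ((percMeasure G p).real {ω | y ∈ cluster ω x})) := by
  classical
  have := Bridge.countable hc
  have hv : Valid (fun _ : Sym2 V => (p : ℝ)) := valid_const p.2.1 p.2.2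
  set E : ℕ → Set (Set (Sym2 V)) := fun n => {ω | Conn (tr (eIn G (thick G F n)) ω) x y} with hE
  have hmono : Monotone E := fun n m hnm ω hω =>
    Conn.mono (fun e he => mem_tr.2 ⟨eIn_mono (thick_mono F hnm) (mem_tr.1 he).1, (mem_tr.1 he).2⟩) hω
  have h1 := tendsto_measure_iUnion_atTop (μ := percMeasure G p) hmono
  have h2 : percMeasure G p (⋃ n, E n) = percMeasure G p {ω | y ∈ cluster ω x} := by
    unfold percMeasure
    refine measure_congr ?_
    filter_upwards [ProbabilityTheory.setBernoulli_ae_subset (u := G.edgeSet) (p := p)] with ω hω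
    refine propext ⟨fun h => ?_, fun h => ?_⟩
    · obtain ⟨n, hn⟩ := Set.mem_iUnion.1 h
      exact reachable_of_conn_tr hn
    · obtain ⟨ω0, h0, hcn⟩ := exists_conn_of_reachable h
      obtain ⟨n, hn⟩ := Meas.exists_thick hc hx ω0 fun e he => hω (h0 e he)
      exact Set.mem_iUnion.2 ⟨n, hcn.mono fun e he => mem_tr.2 ⟨hn he, h0 e he⟩⟩
  rw [h2] at h1
  have hfin : percMeasure G p {ω | y ∈ cluster ω x} ≠ ⊤ := by
    unfold percMeasure; exact measure_ne_top _ _
  have h3 := (ENNReal.tendsto_toReal hfin).comp h1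
  refine h3.congr fun n => ?_
  have h4 := measure_tr (u := G.edgeSet) (U := eIn G (thick G F n))
    (fun e he => eIn_edge he) p (fun ξ => Conn ξ x y)
  simp only [Function.comp, hE]
  unfold percMeasure tau
  rw [h4, ENNReal.toReal_ofReal (Pr_nonneg hv _)]

theorem sum_conn_le (hc : G.Connected) (p : I) (F : Finset V) {B : ℝ}
    (h : ∀ S : Finset V, ∑ x ∈ F, ∑ y ∈ F, tau G p S x y ≤ B) :
    ∑ x ∈ F, ∑ y ∈ F, (percMeasure G p).real {ω | y ∈ cluster ω x} ≤ B :=
  le_of_tendsto' (tendsto_finsetSum F fun _ hx => tendsto_finsetSum F fun y _ =>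
    Meas.tendsto_tau hc p hx y) fun n => h (thick G F n)

end Vale.Agent.P165
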