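import Vale.Agent.P165.Spec
import Vale.Agent.P165.Path

/-! The boundary functional is at least one. -/

namespace Vale.Agent.P165

open Finset Vale.Agent.P151 Vale.Agent.P151G

variable {V : Type*} [DecidableEq V] {G : SimpleGraph V} [G.LocallyFinite] {l p : ℝ} {d : ℕ}

/-- the edge `s(x, y)` is an open bridge separating `y` from `o` -/
def Phi_B (o x y : V) (ω : Finset (Sym2 V)) : Prop :=
  s(x, y) ∈ ω ∧ Conn (ω.erase s(x, y)) o x ∧ ¬ Conn (ω.erase s(x, y)) o y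

theorem Phi_one (h0 : 0 ≤ p) (h1 : p ≤ 1) (U : Finset (Sym2 V)) (o x y : V) (he : s(x, y) ∈ U) :
    p * Pr U (fun _ => p) (fun ω => Conn ω o x ∧ ¬ Conn ω o y) ≤
      Pr U (fun _ => p) (Phi_B o x y) := by
  have hv : Valid (fun _ : Sym2 V => p) := valid_const h0 h1
  obtain ⟨U', hU', hn⟩ : ∃ U', U = insert s(x, y) U' ∧ s(x, y) ∉ U' :=
    ⟨U.erase s(x, y), (insert_erase he).symm, notMem_erase _ _⟩
  subst hU'
  unfold Pr
  rw [Ex_insert hn, Ex_insert hn]
  have a1 : Ex U' (fun _ => p)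
      (fun ω => ind (Conn (insert s(x, y) ω) o x ∧ ¬ Conn (insert s(x, y) ω) o y)) = 0 := by
    rw [Ex_congr (g := fun _ => 0), Ex_const]
    intro ω _
    exact ind_neg fun h => h.2 (h.1.trans (Conn.of_mem (mem_insert_self _ _)))
  have a2 : Ex U' (fun _ => p) (fun ω => ind (Phi_B o x y (insert s(x, y) ω))) =
      Ex U' (fun _ => p) (fun ω => ind (Conn ω o x ∧ ¬ Conn ω o y)) := by
    refine Ex_congr fun ω hω => ind_congr ?_
    have : (insert s(x, y) ω).erase s(x, y) = ω := erase_insert fun h => hn (hω h)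
    unfold Phi_B
    rw [this]
    exact ⟨fun h => h.2, fun h => ⟨mem_insert_self _ _, h⟩⟩
  have a3 : 0 ≤ Ex U' (fun _ => p) (fun ω => ind (Phi_B o x y ω)) :=
    Ex_nonneg hv fun _ _ => ind_nonneg _
  have a4 : 0 ≤ Ex U' (fun _ => p) (fun ω => ind (Conn ω o x ∧ ¬ Conn ω o y)) :=
    Ex_nonneg hv fun _ _ => ind_nonneg _
  rw [a1, a2]
  have a5 := mul_nonneg (sub_nonneg.2 h1) a3
  have a6 := mul_nonneg (mul_nonneg h0 h0) a4
  nlinarith

theorem Phi_uniq (S : Finset V) {o y : V} (hy : y ≠ o) (ω : Finset (Sym2 V)) :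
    ∑ x ∈ S, ind (Phi_B o x y ω) ≤ ind (Conn ω o y) := by
  by_cases hc : Conn ω o y
  · rw [ind_pos hc]
    rcases Conn.exit (ω' := ω.filter fun e => y ∉ e) (D := {v | v ≠ y})
      (fun a b ha hb hab => mem_filter.2 ⟨hab, by
        rw [Sym2.mem_iff]
        rintro (h | h)
        · exact ha h.symm
        · exact hb h.symm⟩) (x := o) (Ne.symm hy) hc with h | ⟨a, b, -, hb, hab, hca⟩
    · exact absurd rfl h.1
    · have hby : b = y := by
        by_contra h
        exact hb h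
      subst hby
      calc ∑ x ∈ S, ind (Phi_B o x b ω) ≤ ∑ x ∈ S, (if x = a then (1 : ℝ) else 0) := by
            refine sum_le_sum fun x _ => ?_
            by_cases hx : x = a
            · rw [if_pos hx]; exact ind_le_one _
            · rw [if_neg hx, ind_neg]
              rintro ⟨-, -, h3⟩
              apply h3
              have hsub : (ω.filter fun e => b ∉ e) ⊆ ω.erase s(x, b) := by
                intro e he
                rw [mem_filter] at he
                refine mem_erase.2 ⟨?_, he.1⟩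
                rintro rfl
                exact he.2 (Sym2.mem_mk_right _ _)
              refine (hca.mono hsub).trans (Conn.of_mem (mem_erase.2 ⟨?_, hab⟩))
              intro h
              exact hx (Sym2.congr_left.1 h).symm
        _ ≤ 1 := by
            rw [sum_ite_eq']
            split_ifs <;> norm_num
  · rw [ind_neg hc]
    refine le_of_eq (sum_eq_zero fun x _ => ind_neg ?_)
    rintro ⟨h1, h2, -⟩
    exact hc ((h2.mono (erase_subset _ _)).trans (Conn.of_mem h1))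

theorem Phi_point (S : Finset V) {o : V} (ho : o ∈ S) (ω : Finset (Sym2 V)) :
    ∑ x ∈ S, ∑ y ∈ G.neighborFinset x ∩ S, ind (Phi_B o x y ω) ≤
      ∑ y ∈ S, ind (Conn ω o y) - 1 := by
  calc ∑ x ∈ S, ∑ y ∈ G.neighborFinset x ∩ S, ind (Phi_B o x y ω)
      ≤ ∑ x ∈ S, ∑ y ∈ S, ind (Phi_B o x y ω) :=
        sum_le_sum fun x _ => sum_le_sum_of_subset_of_nonneg inter_subset_right
          fun _ _ _ => ind_nonneg _
    _ = ∑ y ∈ S, ∑ x ∈ S, ind (Phi_B o x y ω) := sum_comm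
    _ ≤ _ := by
        rw [← add_sum_erase S _ ho, ← add_sum_erase S (fun y => ind (Conn ω o y)) ho]
        have b1 : ∑ x ∈ S, ind (Phi_B o x o ω) = 0 :=
          sum_eq_zero fun x _ => ind_neg fun h => h.2.2 (Conn.refl _ _)
        have b2 : ∑ y ∈ S.erase o, ∑ x ∈ S, ind (Phi_B o x y ω) ≤
            ∑ y ∈ S.erase o, ind (Conn ω o y) :=
          sum_le_sum fun y hy => Phi_uniq S (ne_of_mem_erase hy) ω
        rw [b1, ind_pos (Conn.refl ω o)]
        linarith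

theorem bridge_le (h0 : 0 ≤ p) (h1 : p ≤ 1) (S : Finset V) {o : V} (ho : o ∈ S) :
    ∑ x ∈ S, ∑ y ∈ G.neighborFinset x ∩ S,
      p * Pr (eIn G S) (fun _ => p) (fun ω => Conn ω o x ∧ ¬ Conn ω o y) ≤
      ∑ y ∈ S, tau G p S o y - 1 := by
  have hv : Valid (fun _ : Sym2 V => p) := valid_const h0 h1
  calc _ ≤ ∑ x ∈ S, ∑ y ∈ G.neighborFinset x ∩ S, Pr (eIn G S) (fun _ => p) (Phi_B o x y) := by
        refine sum_le_sum fun x hx => sum_le_sum fun y hy => Phi_one h0 h1 _ o x y ?_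
        rw [mem_inter, SimpleGraph.mem_neighborFinset] at hy
        exact mk_mem_eIn.2 ⟨hx, hy.2, hy.1⟩
    _ = Ex (eIn G S) (fun _ => p)
        (fun ω => ∑ x ∈ S, ∑ y ∈ G.neighborFinset x ∩ S, ind (Phi_B o x y ω)) := by
        rw [Ex_sum]
        refine sum_congr rfl fun x _ => ?_
        rw [Ex_sum]
        rfl
    _ ≤ Ex (eIn G S) (fun _ => p) (fun ω => ∑ y ∈ S, ind (Conn ω o y) - 1) :=
        Ex_mono hv fun ω _ => Phi_point S ho ω
    _ = _ := by
        rw [Ex_sub, Ex_const, Ex_sum]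
        rfl

theorem Phi_geo {r : ℝ} (h0 : 0 ≤ r) (h1 : r < 1) (n : ℕ) : ∑ i ∈ range n, r ^ i ≤ 1 / (1 - r) := by
  rw [le_div_iff₀ (sub_pos.2 h1), geom_sum_mul_neg]
  linarith [pow_nonneg h0 n]

theorem Phi_geo2 {r : ℝ} (h0 : 0 ≤ r) (h1 : r < 1) (n : ℕ) :
    ∑ ij ∈ (range (n + 1) ×ˢ range (n + 1)).filter (fun ij => 1 ≤ ij.1 + ij.2),
      r ^ (ij.1 + ij.2 - 1) ≤ 2 / (1 - r) ^ 2 := by
  rw [sum_filter, sum_product, sum_range_succ']
  have c1 : ∑ i ∈ range n, ∑ j ∈ range (n + 1),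
      (if 1 ≤ (i + 1, j).1 + (i + 1, j).2 then r ^ ((i + 1, j).1 + (i + 1, j).2 - 1) else 0) =
      (∑ i ∈ range n, r ^ i) * ∑ j ∈ range (n + 1), r ^ j := by
    rw [sum_mul_sum]
    refine sum_congr rfl fun i _ => sum_congr rfl fun j _ => ?_
    rw [if_pos (by simp only; omega), ← pow_add]
    congr 1
    simp only
    omega
  have c2 : ∑ j ∈ range (n + 1),
      (if 1 ≤ (0, j).1 + (0, j).2 then r ^ ((0, j).1 + (0, j).2 - 1) else 0) =
      ∑ i ∈ range n, r ^ i := by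
    rw [sum_range_succ', if_neg (by simp), add_zero]
    refine sum_congr rfl fun i _ => ?_
    rw [if_pos (by simp only; omega)]
    congr 1
    simp only
    omega
  rw [c1, c2]
  have g1 := Phi_geo h0 h1 n
  have g2 := Phi_geo h0 h1 (n + 1)
  have g3 : 0 ≤ ∑ j ∈ range (n + 1), r ^ j := sum_nonneg fun _ _ => pow_nonneg h0 _
  have hs : 0 < 1 - r := sub_pos.2 h1
  have g4 : 0 ≤ 1 / (1 - r) := by positivity
  have g5 : (∑ i ∈ range n, r ^ i) * ∑ j ∈ range (n + 1), r ^ j ≤ 1 / (1 - r) * (1 / (1 - r)) :=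
    mul_le_mul g1 g2 g3 g4
  have g6 : 1 ≤ 1 / (1 - r) := by
    rw [le_div_iff₀ hs]; linarith
  have g7 : 2 / (1 - r) ^ 2 = 2 * (1 / (1 - r) * (1 / (1 - r))) := by
    field_simp
  rw [g7]
  nlinarith

theorem Phi_cnt_nonneg (n : ℕ) (x y : V) : 0 ≤ cnt G n x y := Nat.cast_nonneg _

theorem both_le (h0 : 0 ≤ p) (h1 : p ≤ 1) (hl : 0 ≤ l) (h : Spec G l) (hd : ∀ v, G.degree v = d)
    (hr : p * l < 1) (S : Finset V) {o : V} (ho : o ∈ S) :
    ∑ x ∈ S, ∑ y ∈ G.neighborFinset x ∩ S,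
      Pr (eIn G S) (fun _ => p) (fun ω => Conn ω o x ∧ Conn ω o y) ≤
      2 * p * d / (1 - p * l) ^ 2 * ∑ y ∈ S, tau G p S o y := by
  have hv : Valid (fun _ : Sym2 V => p) := valid_const h0 h1
  have ht : ∀ u, 0 ≤ tau G p S o u := fun u => Pr_nonneg hv _
  obtain ⟨F, hF⟩ : ∃ F, F = (range ((eIn G S).card + 1) ×ˢ
        range ((eIn G S).card + 1)).filter (fun ij : ℕ × ℕ => 1 ≤ ij.1 + ij.2) := ⟨_, rfl⟩
  have hgeo : ∑ ij ∈ F, (p * l) ^ (ij.1 + ij.2 - 1) ≤ 2 / (1 - p * l) ^ 2 := by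
    rw [hF]; exact Phi_geo2 (mul_nonneg h0 hl) hr _
  have hF1 : ∀ ij ∈ F, 1 ≤ ij.1 + ij.2 := by
    intro ij hij
    rw [hF] at hij
    exact (mem_filter.1 hij).2
  calc _ ≤ ∑ x ∈ S, ∑ y ∈ G.neighborFinset x ∩ S, ∑ u ∈ S, tau G p S o u * ∑ ij ∈ F,
          p ^ (ij.1 + ij.2) * (cnt G ij.1 x u * cnt G ij.2 y u) := by
        refine sum_le_sum fun x _ => sum_le_sum fun y hy => ?_
        rw [mem_inter, SimpleGraph.mem_neighborFinset] at hy
        rw [hF]
        exact two_le h0 h1 S ho hy.1.ne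
    _ ≤ ∑ x ∈ S, ∑ y ∈ G.neighborFinset x, ∑ u ∈ S, tau G p S o u * ∑ ij ∈ F,
          p ^ (ij.1 + ij.2) * (cnt G ij.1 x u * cnt G ij.2 y u) := by
        refine sum_le_sum fun x _ => sum_le_sum_of_subset_of_nonneg inter_subset_left
          fun y _ _ => sum_nonneg fun u _ => mul_nonneg (ht u) (sum_nonneg fun ij _ => ?_)
        exact mul_nonneg (pow_nonneg h0 _) (mul_nonneg (Phi_cnt_nonneg _ _ _) (Phi_cnt_nonneg _ _ _))
    _ = ∑ u ∈ S, tau G p S o u * ∑ ij ∈ F, p ^ (ij.1 + ij.2) *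
          ∑ x ∈ S, ∑ y ∈ G.neighborFinset x, cnt G ij.1 x u * cnt G ij.2 y u := by
        simp only [mul_sum]
        rw [sum_congr rfl fun x _ => sum_comm, sum_comm]
        refine sum_congr rfl fun u _ => ?_
        rw [sum_congr rfl fun x _ => sum_comm, sum_comm]
    _ ≤ ∑ u ∈ S, tau G p S o u * (2 * p * d / (1 - p * l) ^ 2) := by
        refine sum_le_sum fun u _ => mul_le_mul_of_nonneg_left ?_ (ht u)
        calc _ ≤ ∑ ij ∈ F, p * d * (p * l) ^ (ij.1 + ij.2 - 1) := by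
              refine sum_le_sum fun ij hij => ?_
              obtain ⟨m, hm⟩ : ∃ m, ij.1 + ij.2 = m + 1 := ⟨ij.1 + ij.2 - 1, by have := hF1 ij hij; omega⟩
              have e1 := loop_le hl h hd S u ij.1 ij.2 m hm
              refine (mul_le_mul_of_nonneg_left e1 (pow_nonneg h0 _)).trans (le_of_eq ?_)
              rw [hm, Nat.add_sub_cancel, mul_pow, pow_succ]
              ring
          _ = p * d * ∑ ij ∈ F, (p * l) ^ (ij.1 + ij.2 - 1) := by rw [mul_sum]
          _ ≤ p * d * (2 / (1 - p * l) ^ 2) :=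
              mul_le_mul_of_nonneg_left hgeo (mul_nonneg h0 (Nat.cast_nonneg _))
          _ = _ := by ring
    _ = _ := by rw [← sum_mul, mul_comm]

theorem one_le_psi (h0 : 0 ≤ p) (h1 : p ≤ 1) (hl : 0 ≤ l) (h : Spec G l)
    (hd : ∀ v, G.degree v = d) (hr : p * l < 1)
    (hp : 1 + p * (2 * p * d / (1 - p * l) ^ 2) ≤ p * d) (S : Finset V) {o : V} (ho : o ∈ S) :
    1 ≤ psi G p S o := by
  have hv : Valid (fun _ : Sym2 V => p) := valid_const h0 h1
  have ht : ∀ u, 0 ≤ tau G p S o u := fun u => Pr_nonneg hv _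
  have hT : 0 ≤ ∑ y ∈ S, tau G p S o y := sum_nonneg fun u _ => ht u
  have hpsi : 0 ≤ psi G p S o := sum_nonneg fun u _ => mul_nonneg (ht u) (Nat.cast_nonneg _)
  have b1 := bridge_le (G := G) h0 h1 S ho
  have b2 := mul_le_mul_of_nonneg_left (both_le h0 h1 hl h hd hr S ho) h0
  have key : p * psi G p S o + (p * ∑ x ∈ S, ∑ y ∈ G.neighborFinset x ∩ S,
      Pr (eIn G S) (fun _ => p) (fun ω => Conn ω o x ∧ Conn ω o y) +
      ∑ x ∈ S, ∑ y ∈ G.neighborFinset x ∩ S,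
        p * Pr (eIn G S) (fun _ => p) (fun ω => Conn ω o x ∧ ¬ Conn ω o y)) =
      p * d * ∑ y ∈ S, tau G p S o y := by
    unfold psi
    rw [mul_sum, mul_sum, mul_sum, ← sum_add_distrib, ← sum_add_distrib]
    refine sum_congr rfl fun x _ => ?_
    rw [mul_sum, ← sum_add_distrib]
    have e1 : ∑ y ∈ G.neighborFinset x ∩ S,
        (p * Pr (eIn G S) (fun _ => p) (fun ω => Conn ω o x ∧ Conn ω o y) +
          p * Pr (eIn G S) (fun _ => p) (fun ω => Conn ω o x ∧ ¬ Conn ω o y)) =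
        ∑ y ∈ G.neighborFinset x ∩ S, p * tau G p S o x := by
      refine sum_congr rfl fun y _ => ?_
      rw [← mul_add, Pr_and_add_and_not]
      rfl
    have e2 : (((G.neighborFinset x \ S).card : ℕ) : ℝ) + ((G.neighborFinset x ∩ S).card : ℕ) = d := by
      rw [← Nat.cast_add, card_sdiff_add_card_inter, SimpleGraph.card_neighborFinset_eq_degree, hd]
    rw [e1, sum_const, nsmul_eq_mul, ← e2]
    ring
  obtain ⟨C, hC⟩ : ∃ C, C = 2 * p * d / (1 - p * l) ^ 2 := ⟨_, rfl⟩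
  rw [← hC] at hp b2
  have f1 := mul_le_mul_of_nonneg_right hp hT
  have f2 := mul_nonneg (sub_nonneg.2 h1) hpsi
  nlinarith

end Vale.Agent.P165
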