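import Vale.Agent.P165.Pow

/-! Balls in a quasi-transitive graph. -/

namespace Vale.Agent.P165

open Finset Vale.Agent.P151G

variable {V : Type*} [DecidableEq V] {G : SimpleGraph V} [G.LocallyFinite]

theorem qp_deg (hq : ∃ F : Finset V, ∀ v, ∃ γ : G ≃g G, ∃ u ∈ F, γ u = v) :
    ∃ Δ : ℕ, ∀ v, G.degree v ≤ Δ := by
  obtain ⟨F, hF⟩ := hq
  refine ⟨F.sup fun u => G.degree u, fun v => ?_⟩
  obtain ⟨γ, u, hu, rfl⟩ := hF v
  refine le_trans ?_ (le_sup (f := fun u => G.degree u) hu)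
  rw [← SimpleGraph.card_neighborFinset_eq_degree, ← SimpleGraph.card_neighborFinset_eq_degree]
  refine card_le_card_of_injOn γ.symm (fun z hz => ?_) (fun _ _ _ _ h => γ.symm.injective h)
  simp only [mem_coe, SimpleGraph.mem_neighborFinset] at hz ⊢
  simpa using γ.symm.map_rel_iff.2 hz

theorem qp_net (hc : G.Connected) (hq : ∃ F : Finset V, ∀ v, ∃ γ : G ≃g G, ∃ u ∈ F, γ u = v) :
    ∃ R : ℕ, ∀ x z, ∃ γ : G ≃g G, γ z ∈ ball G x R := by
  obtain ⟨F, hF⟩ := hq
  choose n hn using fun a b : V => exists_mem_ball hc a b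
  refine ⟨(F ×ˢ F).sup fun p => n p.1 p.2, fun x z => ?_⟩
  obtain ⟨γ₁, u₁, h₁, rfl⟩ := hF x
  obtain ⟨γ₂, u₂, h₂, rfl⟩ := hF z
  refine ⟨γ₂.symm.trans γ₁, ?_⟩
  have h3 : n u₁ u₂ ≤ (F ×ˢ F).sup fun p => n p.1 p.2 :=
    le_sup (f := fun p : V × V => n p.1 p.2) (b := (u₁, u₂)) (mem_product.2 ⟨h₁, h₂⟩)
  simpa using ball_aut γ₁ (ball_mono u₁ h3 (hn u₁ u₂))

theorem qp_succ {Δ : ℕ} (hΔ : ∀ v, G.degree v ≤ Δ) (x : V) (k j : ℕ) :
    (ball G x (k + j)).card ≤ (Δ + 1) ^ j * (ball G x k).card := by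
  induction j with
  | zero => simp
  | succ j ih =>
    have h4 : ((ball G x (k + j)).biUnion fun y => G.neighborFinset y).card ≤
        (ball G x (k + j)).card * Δ :=
      card_biUnion_le_card_mul _ _ _ fun y _ => by
        rw [SimpleGraph.card_neighborFinset_eq_degree]; exact hΔ y
    calc (ball G x (k + j + 1)).card ≤ (ball G x (k + j)).card + (ball G x (k + j)).card * Δ :=
          (card_union_le _ _).trans (Nat.add_le_add_left h4 _)
      _ = (Δ + 1) * (ball G x (k + j)).card := by ring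
      _ ≤ (Δ + 1) * ((Δ + 1) ^ j * (ball G x k).card) := Nat.mul_le_mul_left _ ih
      _ = _ := by ring

theorem qp_cmp {Δ R : ℕ} (hΔ : ∀ v, G.degree v ≤ Δ)
    (hR : ∀ x z, ∃ γ : G ≃g G, γ z ∈ ball G x R) (x z : V) (k : ℕ) :
    (ball G z k).card ≤ (Δ + 1) ^ R * (ball G x k).card := by
  obtain ⟨γ, hγ⟩ := hR x z
  refine le_trans ?_ (qp_succ hΔ x k R)
  refine card_le_card_of_injOn γ (fun y hy => ?_) (fun _ _ _ _ h => γ.injective h)
  exact mem_coe.2 (ball_subset_ball hγ (by omega) (ball_aut γ (mem_coe.1 hy)))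

open Classical in
theorem qp_den {Δ R : ℕ} (hΔ : ∀ v, G.degree v ≤ Δ)
    (hR : ∀ x z, ∃ γ : G ≃g G, γ z ∈ ball G x R) (x z : V) (k : ℕ) :
    (ball G x k).card ≤ (Δ + 1) ^ R *
      ((ball G x (k + R)).filter fun y => ∃ γ : G ≃g G, γ z = y).card := by
  choose g hg using fun y => hR y z
  refine card_le_mul_card_image_of_maps_to (f := fun y => g y z) (fun y hy => ?_) _
    fun t _ => le_trans (card_le_card fun y hy => ?_) (card_ball hΔ t R)
  · exact mem_filter.2 ⟨ball_trans hy (hg y), g y, rfl⟩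
  · obtain ⟨-, rfl⟩ := mem_filter.1 hy
    exact ball_symm (hg y)

theorem qp_iso {Δ m : ℕ} (hΔ : ∀ v, G.degree v ≤ Δ) {k : ℕ} (hm : ∀ v, m ≤ (ball G v k).card)
    (A : Finset V) :
    {y | y ∉ A ∧ ∃ x ∈ A, G.Adj x y}.ncard * m ≤
      (Δ + 1) * ∑ x ∈ A, (ball G x (k + 1) \ A).card := by
  classical
  set D : Finset V := (A.biUnion fun x => G.neighborFinset x) \ A with hD
  have hDm : ∀ y, y ∈ D ↔ y ∉ A ∧ ∃ x ∈ A, G.Adj x y := by
    intro y
    simp [hD, and_comm]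
  have hDc : {y | y ∉ A ∧ ∃ x ∈ A, G.Adj x y}.ncard = D.card := by
    rw [← Set.ncard_coe_finset]
    congr 1
    ext y
    simp only [Set.mem_ofPred_eq, mem_coe, hDm]
  rw [hDc]
  have hu : ∀ v, ∃ u, v ∈ D → u ∈ A ∧ G.Adj u v := by
    intro v
    by_cases hv : v ∈ D
    · obtain ⟨x, hx, hxv⟩ := ((hDm v).1 hv).2
      exact ⟨x, fun _ => ⟨hx, hxv⟩⟩
    · exact ⟨v, fun h => absurd h hv⟩
  choose u hu using hu
  let f : (Σ _ : V, V) → (Σ _ : V, V) := fun a => if a.2 ∈ A then ⟨a.2, a.1⟩ else ⟨u a.1, a.2⟩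
  have h2 := card_le_mul_card_image_of_maps_to (f := f)
    (s := D.sigma fun v => ball G v k) (t := A.sigma fun x => ball G x (k + 1) \ A)
    (by
      rintro ⟨v, z⟩ ha
      obtain ⟨hv, hz⟩ := mem_sigma.1 ha
      simp only at hv hz
      by_cases hzA : z ∈ A
      · simp only [f, hzA, if_true]
        exact mem_sigma.2 ⟨hzA, mem_sdiff.2
          ⟨ball_mono z (Nat.le_succ _) (ball_symm hz), ((hDm v).1 hv).1⟩⟩
      · simp only [f, hzA, if_false]
        refine mem_sigma.2 ⟨(hu v hv).1, mem_sdiff.2 ⟨?_, hzA⟩⟩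
        have := ball_trans (ball_adj (mem_ball_self (u v) 0) (hu v hv).2) hz
        rwa [zero_add, add_comm] at this) (Δ + 1)
    (by
      rintro ⟨x, y⟩ -
      have hsub : ((D.sigma fun v => ball G v k).filter fun a => f a = ⟨x, y⟩) ⊆
          insert (⟨y, x⟩ : Σ _ : V, V) ((G.neighborFinset x).image fun v => ⟨v, y⟩) := by
        rintro ⟨v, z⟩ ha
        obtain ⟨ha, hf⟩ := mem_filter.1 ha
        obtain ⟨hv, -⟩ := mem_sigma.1 ha
        simp only at hv
        by_cases hzA : z ∈ A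
        · simp only [f, hzA, if_true, Sigma.mk.injEq, heq_eq_eq] at hf
          obtain ⟨rfl, rfl⟩ := hf
          exact mem_insert_self _ _
        · simp only [f, hzA, if_false, Sigma.mk.injEq, heq_eq_eq] at hf
          obtain ⟨rfl, rfl⟩ := hf
          exact mem_insert_of_mem (mem_image.2
            ⟨v, (G.mem_neighborFinset _ _).2 (hu v hv).2, rfl⟩)
      refine (card_le_card hsub).trans ((card_insert_le _ _).trans ?_)
      have := card_image_le (s := G.neighborFinset x) (f := fun v => (⟨v, y⟩ : Σ _ : V, V))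
      rw [SimpleGraph.card_neighborFinset_eq_degree] at this
      have := hΔ x
      omega)
  rw [card_sigma, card_sigma] at h2
  refine le_trans ?_ h2
  have := card_nsmul_le_sum D (fun v => (ball G v k).card) m fun v _ => hm v
  simpa using this

open Classical in
theorem qpow [Infinite V] (hc : G.Connected)
    (hq : ∃ F : Finset V, ∀ v, ∃ γ : G ≃g G, ∃ u ∈ F, γ u = v) {h : ℝ} (h0 : 0 < h)
    (hh : ∀ A : Finset V, A.Nonempty →
      h * A.card ≤ ({y | y ∉ A ∧ ∃ x ∈ A, G.Adj x y}.ncard : ℝ)) :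
    ∃ C Φ : ℝ, 1 ≤ C ∧ 0 < Φ ∧ ∀ M : ℝ, ∃ k0 : ℕ, ∀ k, k0 ≤ k → ∃ D : ℝ, M ≤ D ∧
      (∀ v, ((ball G v k).card : ℝ) ≤ D) ∧
      (∀ x z, D / C ≤
        ((((ball G x k).erase x).filter fun y => ∃ γ : G ≃g G, γ z = y).card : ℝ)) ∧
      ∀ A : Finset V, Φ * D * A.card ≤ ∑ x ∈ A, ((ball G x k \ A).card : ℝ) := by
  obtain ⟨Δ, hΔ⟩ := qp_deg hq
  obtain ⟨R, hR⟩ := qp_net hc hq
  obtain ⟨o⟩ := hc.nonempty
  set E : ℕ := (Δ + 1) ^ R with hE
  have hE1 : 1 ≤ E := Nat.one_le_pow _ _ (by omega)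
  have hE1' : (1 : ℝ) ≤ E := by exact_mod_cast hE1
  have hE4 : (1 : ℝ) ≤ (E : ℝ) ^ 4 := one_le_pow₀ hE1'
  refine ⟨2 * (E : ℝ) ^ 4, h / ((E : ℝ) ^ 2 * ((Δ : ℝ) + 1) ^ 2), by linarith, by positivity,
    fun M => ⟨R + 1 + 2 * E ^ 4 + ⌈M⌉₊, fun k hk => ⟨(E : ℝ) * (ball G o k).card, ?_, ?_, ?_, ?_⟩⟩⟩
  · have h1 : ⌈M⌉₊ ≤ E * (ball G o k).card := by
      have := le_card_ball hc o k
      have := Nat.le_mul_of_pos_left (ball G o k).card hE1
      omega
    exact (Nat.le_ceil M).trans (by exact_mod_cast h1)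
  · intro v
    exact_mod_cast qp_cmp hΔ hR o v k
  · intro x z
    obtain ⟨j, rfl⟩ : ∃ j, k = j + R := ⟨k - R, by omega⟩
    have h1 := qp_den hΔ hR x z j
    have h2 := qp_succ hΔ x j R
    have h3 := qp_cmp hΔ hR x o (j + R)
    have h4 := le_card_ball hc o (j + R)
    rw [← hE] at h1 h2 h3
    have h5 : ((ball G x (j + R)).filter fun y => ∃ γ : G ≃g G, γ z = y).card ≤
        (((ball G x (j + R)).erase x).filter fun y => ∃ γ : G ≃g G, γ z = y).card + 1 := by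
      refine le_trans (card_le_card fun y hy => ?_) (card_insert_le x _)
      rw [mem_insert, mem_filter, mem_erase]
      rw [mem_filter] at hy
      tauto
    set N := (((ball G x (j + R)).erase x).filter fun y => ∃ γ : G ≃g G, γ z = y).card
    have h6 : E * (ball G o (j + R)).card ≤ E ^ 4 * (N + 1) :=
      calc E * (ball G o (j + R)).card ≤ E * (E * (E * (E * (N + 1)))) :=
            Nat.mul_le_mul_left _ (h3.trans (Nat.mul_le_mul_left _ (h2.trans
              (Nat.mul_le_mul_left _ (h1.trans (Nat.mul_le_mul_left _ h5))))))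
        _ = _ := by ring
    have h7 : 2 * E ^ 4 ≤ E * (ball G o (j + R)).card := by
      have := Nat.le_mul_of_pos_left (ball G o (j + R)).card hE1
      omega
    have h8 : E * (ball G o (j + R)).card ≤ N * (2 * E ^ 4) := by nlinarith
    rw [div_le_iff₀ (by positivity)]
    exact_mod_cast h8
  · intro A
    rcases A.eq_empty_or_nonempty with rfl | hA
    · simp
    obtain ⟨j, rfl⟩ : ∃ j, k = j + 1 := ⟨k - 1, by omega⟩
    obtain ⟨m, ⟨v, rfl⟩, hm⟩ := (wellFounded_lt (α := ℕ)).has_min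
      (Set.range fun v => (ball G v j).card) ⟨_, o, rfl⟩
    have h1 := qp_iso hΔ (k := j) (m := (ball G v j).card)
      (fun w => not_lt.1 (hm _ ⟨w, rfl⟩)) A
    have h2 := qp_succ hΔ v j 1
    have h3 := qp_cmp hΔ hR v o (j + 1)
    rw [← hE] at h3
    rw [pow_one] at h2
    have h4 := hh A hA
    have h1' : ({y | y ∉ A ∧ ∃ x ∈ A, G.Adj x y}.ncard : ℝ) * (ball G v j).card ≤
        ((Δ : ℝ) + 1) * ∑ x ∈ A, ((ball G x (j + 1) \ A).card : ℝ) := by exact_mod_cast h1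
    have h5 : ((ball G o (j + 1)).card : ℝ) ≤ E * (((Δ : ℝ) + 1) * (ball G v j).card) := by
      exact_mod_cast h3.trans (Nat.mul_le_mul_left _ h2)
    have hb0 : (0 : ℝ) ≤ (ball G v j).card := by positivity
    have hA0 : (0 : ℝ) ≤ h * A.card := by positivity
    rw [div_mul_eq_mul_div, div_mul_eq_mul_div, div_le_iff₀ (by positivity)]
    calc h * ((E : ℝ) * (ball G o (j + 1)).card) * A.card
        = E * ((h * A.card) * (ball G o (j + 1)).card) := by ring
      _ ≤ E * ((h * A.card) * (E * (((Δ : ℝ) + 1) * (ball G v j).card))) := by gcongr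
      _ = (E : ℝ) ^ 2 * ((Δ : ℝ) + 1) * ((h * A.card) * (ball G v j).card) := by ring
      _ ≤ (E : ℝ) ^ 2 * ((Δ : ℝ) + 1) *
          (((Δ : ℝ) + 1) * ∑ x ∈ A, ((ball G x (j + 1) \ A).card : ℝ)) :=
          mul_le_mul_of_nonneg_left ((mul_le_mul_of_nonneg_right h4 hb0).trans h1') (by positivity)
      _ = _ := by ring

end Vale.Agent.P165
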