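import Vale.Agent.P165.Phi

/-! Weighted boundary functional. -/

namespace Vale.Agent.P165

open Finset Vale.Agent.P151 Vale.Agent.P151G

variable {V : Type*} [DecidableEq V] {G : SimpleGraph V} [G.LocallyFinite] {l p : ℝ}

theorem WPhi_nb {D : ℝ} (hl : 0 ≤ l) (h : Spec G l) (hd : ∀ v, (G.degree v : ℝ) ≤ D) (u : V)
    (k : ℕ) : SpecL2 (fun x => ∑ y ∈ G.neighborFinset x, cnt G k y u) ((l ^ 2) ^ k * D) := by
  induction k with
  | zero =>
    rw [pow_zero, one_mul]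
    have h1 : SpecL2 (fun x => ∑ y ∈ G.neighborFinset x, cnt G 0 y u)
        (G.neighborFinset u).card := by
      refine (spec_ind _).mono (fun x => sum_nonneg fun y _ => spec_cnt_nonneg _ _ _)
        fun x => le_of_eq ?_
      simp only [spec_cnt_zero, sum_ite_eq']
      exact if_congr (by simp [G.adj_comm]) rfl rfl
    intro S
    refine (h1 S).trans ?_
    rw [SimpleGraph.card_neighborFinset_eq_degree]
    exact hd u
  | succ k ih =>
    rw [pow_succ', mul_assoc]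
    exact spec_step hl h (ih.mono (fun x => spec_cnt_nonneg _ _ _) fun x => spec_cnt_succ k x u)

theorem wloop_le {D : ℝ} (hl : 0 ≤ l) (h : Spec G l) (hd : ∀ v, (G.degree v : ℝ) ≤ D)
    (S : Finset V) (u : V) (i j m : ℕ) (hm : i + j = m + 1) :
    ∑ x ∈ S, ∑ y ∈ G.neighborFinset x, cnt G i x u * cnt G j y u ≤ D * l ^ m := by
  have hD : 0 ≤ D := (Nat.cast_nonneg _).trans (hd u)
  have hc : ∀ k, SpecL2 (fun x => cnt G (k + 1) x u) ((l ^ 2) ^ k * D) := fun k =>
    (WPhi_nb hl h hd u k).mono (fun x => spec_cnt_nonneg _ _ _) fun x => spec_cnt_succ k x u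
  simp only [← mul_sum]
  cases i with
  | zero =>
    have hj : j = m + 1 := by omega
    subst hj
    have h1 := spec_cs (G.neighborFinset u) (f := fun _ => (1 : ℝ)) (A := D) (c := D * l ^ m)
      (by simp [hd u]) (hc m (G.neighborFinset u)) (by positivity) (by ring)
    simp only [one_mul] at h1
    simp only [spec_cnt_zero, ite_mul, one_mul, zero_mul, sum_ite_eq']
    split_ifs
    · exact h1
    · positivity
  | succ i =>
    have hj : m = i + j := by omega
    subst hj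
    exact spec_cs S (hc i S) (WPhi_nb hl h hd u j S) (by positivity) (by ring)

theorem WPhi_point (S : Finset V) {o : V} (ho : o ∈ S) {w : V → ℝ} (hw : ∀ x, 0 ≤ w x)
    (ω : Finset (Sym2 V)) :
    ∑ x ∈ S, ∑ y ∈ G.neighborFinset x ∩ S, ind (Phi_B o x y ω) * w y ≤
      ∑ y ∈ S, ind (Conn ω o y) * w y - w o := by
  calc ∑ x ∈ S, ∑ y ∈ G.neighborFinset x ∩ S, ind (Phi_B o x y ω) * w y
      ≤ ∑ x ∈ S, ∑ y ∈ S, ind (Phi_B o x y ω) * w y :=
        sum_le_sum fun x _ => sum_le_sum_of_subset_of_nonneg inter_subset_right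
          fun _ _ _ => mul_nonneg (ind_nonneg _) (hw _)
    _ = ∑ y ∈ S, (∑ x ∈ S, ind (Phi_B o x y ω)) * w y := by
        rw [sum_comm]
        exact sum_congr rfl fun y _ => (sum_mul _ _ _).symm
    _ ≤ _ := by
        rw [← add_sum_erase S _ ho, ← add_sum_erase S (fun y => ind (Conn ω o y) * w y) ho]
        have b1 : ∑ x ∈ S, ind (Phi_B o x o ω) = 0 :=
          sum_eq_zero fun x _ => ind_neg fun h => h.2.2 (Conn.refl _ _)
        have b2 : ∑ y ∈ S.erase o, (∑ x ∈ S, ind (Phi_B o x y ω)) * w y ≤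
            ∑ y ∈ S.erase o, ind (Conn ω o y) * w y :=
          sum_le_sum fun y hy =>
            mul_le_mul_of_nonneg_right (Phi_uniq S (ne_of_mem_erase hy) ω) (hw y)
        rw [b1, ind_pos (Conn.refl ω o)]
        linarith

theorem wbridge_le (h0 : 0 ≤ p) (h1 : p ≤ 1) (S : Finset V) {o : V} (ho : o ∈ S) {w : V → ℝ}
    (hw : ∀ x, 0 ≤ w x) :
    ∑ x ∈ S, ∑ y ∈ G.neighborFinset x ∩ S,
      p * Pr (eIn G S) (fun _ => p) (fun ω => Conn ω o x ∧ ¬ Conn ω o y) * w y ≤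
      ∑ y ∈ S, tau G p S o y * w y - w o := by
  have hv : Valid (fun _ : Sym2 V => p) := valid_const h0 h1
  calc _ ≤ ∑ x ∈ S, ∑ y ∈ G.neighborFinset x ∩ S,
        Pr (eIn G S) (fun _ => p) (Phi_B o x y) * w y := by
        refine sum_le_sum fun x hx => sum_le_sum fun y hy =>
          mul_le_mul_of_nonneg_right (Phi_one h0 h1 _ o x y ?_) (hw y)
        rw [mem_inter, SimpleGraph.mem_neighborFinset] at hy
        exact mk_mem_eIn.2 ⟨hx, hy.2, hy.1⟩
    _ = Ex (eIn G S) (fun _ => p)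
        (fun ω => ∑ x ∈ S, ∑ y ∈ G.neighborFinset x ∩ S, ind (Phi_B o x y ω) * w y) := by
        rw [Ex_sum]
        refine sum_congr rfl fun x _ => ?_
        rw [Ex_sum]
        refine sum_congr rfl fun y _ => ?_
        rw [Ex_mul_const]
        rfl
    _ ≤ Ex (eIn G S) (fun _ => p) (fun ω => ∑ y ∈ S, ind (Conn ω o y) * w y - w o) :=
        Ex_mono hv fun ω _ => WPhi_point S ho hw ω
    _ = _ := by
        rw [Ex_sub, Ex_const, Ex_sum]
        congr 1
        refine sum_congr rfl fun y _ => ?_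
        rw [Ex_mul_const]
        rfl

theorem wboth_le {D : ℝ} (h0 : 0 ≤ p) (h1 : p ≤ 1) (hl : 0 ≤ l) (h : Spec G l)
    (hd : ∀ v, (G.degree v : ℝ) ≤ D) (hr : p * l < 1) (S : Finset V) {o : V} (ho : o ∈ S) :
    ∑ x ∈ S, ∑ y ∈ G.neighborFinset x ∩ S,
      Pr (eIn G S) (fun _ => p) (fun ω => Conn ω o x ∧ Conn ω o y) ≤
      2 * p * D / (1 - p * l) ^ 2 * ∑ y ∈ S, tau G p S o y := by
  have hD : 0 ≤ D := (Nat.cast_nonneg _).trans (hd o)
  have hv : Valid (fun _ : Sym2 V => p) := valid_const h0 h1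
  have ht : ∀ u, 0 ≤ tau G p S o u := fun u => Pr_nonneg hv _
  obtain ⟨F, hF⟩ : ∃ F, F = (range ((eIn G S).card + 1) ×ˢ
        range ((eIn G S).card + 1)).filter (fun ij : ℕ × ℕ => 1 ≤ ij.1 + ij.2) := ⟨_, rfl⟩
  have hgeo : ∑ ij ∈ F, (p * l) ^ (ij.1 + ij.2 - 1) ≤ 2 / (1 - p * l) ^ 2 := by
    rw [hF]; exact Phi_geo2 (mul_nonneg h0 hl) hr _
  have hF1 : ∀ ij ∈ F, 1 ≤ ij.1 + ij.2 := by
    intro ij hij
    rw [hF] at hij
    exact (mem_filter.1 hij).2
  calc _ ≤ ∑ x ∈ S, ∑ y ∈ G.neighborFinset x ∩ S, ∑ u ∈ S, tau G p S o u * ∑ ij ∈ F,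
          p ^ (ij.1 + ij.2) * (cnt G ij.1 x u * cnt G ij.2 y u) := by
        refine sum_le_sum fun x _ => sum_le_sum fun y hy => ?_
        rw [mem_inter, SimpleGraph.mem_neighborFinset] at hy
        rw [hF]
        exact two_le h0 h1 S ho hy.1.ne
    _ ≤ ∑ x ∈ S, ∑ y ∈ G.neighborFinset x, ∑ u ∈ S, tau G p S o u * ∑ ij ∈ F,
          p ^ (ij.1 + ij.2) * (cnt G ij.1 x u * cnt G ij.2 y u) := by
        refine sum_le_sum fun x _ => sum_le_sum_of_subset_of_nonneg inter_subset_left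
          fun y _ _ => sum_nonneg fun u _ => mul_nonneg (ht u) (sum_nonneg fun ij _ => ?_)
        exact mul_nonneg (pow_nonneg h0 _) (mul_nonneg (Phi_cnt_nonneg _ _ _) (Phi_cnt_nonneg _ _ _))
    _ = ∑ u ∈ S, tau G p S o u * ∑ ij ∈ F, p ^ (ij.1 + ij.2) *
          ∑ x ∈ S, ∑ y ∈ G.neighborFinset x, cnt G ij.1 x u * cnt G ij.2 y u := by
        simp only [mul_sum]
        rw [sum_congr rfl fun x _ => sum_comm, sum_comm]
        refine sum_congr rfl fun u _ => ?_
        rw [sum_congr rfl fun x _ => sum_comm, sum_comm]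
    _ ≤ ∑ u ∈ S, tau G p S o u * (2 * p * D / (1 - p * l) ^ 2) := by
        refine sum_le_sum fun u _ => mul_le_mul_of_nonneg_left ?_ (ht u)
        calc _ ≤ ∑ ij ∈ F, p * D * (p * l) ^ (ij.1 + ij.2 - 1) := by
              refine sum_le_sum fun ij hij => ?_
              obtain ⟨m, hm⟩ : ∃ m, ij.1 + ij.2 = m + 1 := ⟨ij.1 + ij.2 - 1, by have := hF1 ij hij; omega⟩
              have e1 := wloop_le hl h hd S u ij.1 ij.2 m hm
              refine (mul_le_mul_of_nonneg_left e1 (pow_nonneg h0 _)).trans (le_of_eq ?_)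
              rw [hm, Nat.add_sub_cancel, mul_pow, pow_succ]
              ring
          _ = p * D * ∑ ij ∈ F, (p * l) ^ (ij.1 + ij.2 - 1) := by rw [mul_sum]
          _ ≤ p * D * (2 / (1 - p * l) ^ 2) :=
              mul_le_mul_of_nonneg_left hgeo (mul_nonneg h0 hD)
          _ = _ := by ring
    _ = _ := by rw [← sum_mul, mul_comm]

theorem le_psi {D C a : ℝ} (h0 : 0 ≤ p) (h1 : p ≤ 1) (hl : 0 ≤ l) (h : Spec G l)
    (hd : ∀ v, (G.degree v : ℝ) ≤ D) (hr : p * l < 1) {w : V → ℝ} (hw : ∀ x, 1 ≤ w x ∧ w x ≤ C)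
    (ha : ∀ x, a * w x ≤ ∑ y ∈ G.neighborFinset x, w y)
    (hp : 1 + p * C * (2 * p * D / (1 - p * l) ^ 2) ≤ p * a) (S : Finset V) {o : V} (ho : o ∈ S) :
    1 / C ≤ psi G p S o := by
  have hv : Valid (fun _ : Sym2 V => p) := valid_const h0 h1
  have ht : ∀ u, 0 ≤ tau G p S o u := fun u => Pr_nonneg hv _
  have hD : 0 ≤ D := (Nat.cast_nonneg _).trans (hd o)
  have hC : 1 ≤ C := (hw o).1.trans (hw o).2
  have hpsi : 0 ≤ psi G p S o := sum_nonneg fun u _ => mul_nonneg (ht u) (Nat.cast_nonneg _)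
  have b1 := wbridge_le (G := G) h0 h1 S ho (w := w) fun x => zero_le_one.trans (hw x).1
  have b2 := mul_le_mul_of_nonneg_left (wboth_le h0 h1 hl h hd hr S ho)
    (mul_nonneg h0 (zero_le_one.trans hC))
  have hT : ∑ y ∈ S, tau G p S o y ≤ ∑ y ∈ S, tau G p S o y * w y :=
    sum_le_sum fun y _ => le_mul_of_one_le_right (ht y) (hw y).1
  have hT0 : 0 ≤ ∑ y ∈ S, tau G p S o y := sum_nonneg fun u _ => ht u
  have key : p * a * ∑ y ∈ S, tau G p S o y * w y ≤ p * C * psi G p S o +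
      (p * C * ∑ x ∈ S, ∑ y ∈ G.neighborFinset x ∩ S,
        Pr (eIn G S) (fun _ => p) (fun ω => Conn ω o x ∧ Conn ω o y) +
      ∑ x ∈ S, ∑ y ∈ G.neighborFinset x ∩ S,
        p * Pr (eIn G S) (fun _ => p) (fun ω => Conn ω o x ∧ ¬ Conn ω o y) * w y) := by
    unfold psi
    rw [mul_sum, mul_sum, mul_sum, ← sum_add_distrib, ← sum_add_distrib]
    refine sum_le_sum fun x _ => ?_
    rw [mul_sum, ← sum_add_distrib]
    have e1 : ∑ y ∈ G.neighborFinset x ∩ S, p * tau G p S o x * w y ≤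
        ∑ y ∈ G.neighborFinset x ∩ S,
          (p * C * Pr (eIn G S) (fun _ => p) (fun ω => Conn ω o x ∧ Conn ω o y) +
            p * Pr (eIn G S) (fun _ => p) (fun ω => Conn ω o x ∧ ¬ Conn ω o y) * w y) := by
      refine sum_le_sum fun y _ => ?_
      have e3 : tau G p S o x = Pr (eIn G S) (fun _ => p) (fun ω => Conn ω o x ∧ Conn ω o y) +
          Pr (eIn G S) (fun _ => p) (fun ω => Conn ω o x ∧ ¬ Conn ω o y) :=
        (Pr_and_add_and_not _ _).symm
      have e4 := mul_le_mul_of_nonneg_left (hw y).2 (mul_nonneg h0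
        (Pr_nonneg (U := eIn G S) hv (fun ω => Conn ω o x ∧ Conn ω o y)))
      rw [e3]
      linarith
    have e2 : ∑ y ∈ G.neighborFinset x \ S, w y ≤ ((G.neighborFinset x \ S).card : ℝ) * C := by
      rw [← nsmul_eq_mul]
      exact sum_le_card_nsmul _ _ _ fun y _ => (hw y).2
    have e5 := sum_inter_add_sum_sdiff (G.neighborFinset x) S w
    have e6 : a * w x ≤ ∑ y ∈ G.neighborFinset x ∩ S, w y +
        ((G.neighborFinset x \ S).card : ℝ) * C := by linarith [ha x]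
    have e7 := mul_le_mul_of_nonneg_left e6 (mul_nonneg h0 (ht x))
    rw [← mul_sum] at e1
    linarith
  obtain ⟨K, hK⟩ : ∃ K, K = 2 * p * D / (1 - p * l) ^ 2 := ⟨_, rfl⟩
  have hK0 : 0 ≤ K := by rw [hK]; positivity
  rw [← hK] at hp b2
  have f1 := mul_le_mul_of_nonneg_right hp (hT0.trans hT)
  have f2 := mul_nonneg (sub_nonneg.2 h1) (mul_nonneg (zero_le_one.trans hC) hpsi)
  have f3 := mul_le_mul_of_nonneg_left hT
    (mul_nonneg (mul_nonneg h0 (zero_le_one.trans hC)) hK0)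
  rw [div_le_iff₀ (by linarith)]
  linarith [(hw o).1]

end Vale.Agent.P165
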