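import Vale.Agent.P165.Russo

/-! The differential inequality with a constant. -/

namespace Vale.Agent.P165

open Finset Vale.Agent.P151 Vale.Agent.P151G

variable {V : Type*} [DecidableEq V] {G : SimpleGraph V} [G.LocallyFinite]

theorem wpiv_ge {q c : ℝ} (h0 : 0 ≤ q) (h1 : q ≤ 1) {o : V}
    (h : ∀ S : Finset V, o ∈ S → c ≤ psi G q S o) (n : ℕ) :
    c * (1 - theta G q o n) ≤ ∑ e ∈ eIn G (ball G o n), Ex (eIn G (ball G o n)) (fun _ => q)
      (fun ω => ind (∃ b ∈ sph G o n, Conn (insert e ω) o b) - ind (∃ b ∈ sph G o n, Conn ω o b)) := by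
  have hv : Valid (fun _ : Sym2 V => q) := valid_const h0 h1
  rw [← Ex_sum, Ex_stop (fun ω => eIn G (ball G o n) \ eIn G (russoS G o n ω))
    (fun ω ω' h => by simp only [russoS_eq h])]
  unfold P151G.theta
  rw [← Pr_not, mul_comm]
  unfold Pr
  rw [← Ex_mul_const]
  refine Ex_mono hv fun a ha => ?_
  by_cases hA : ∃ b ∈ sph G o n, Conn a o b
  · rw [ind_neg (not_not.2 hA), zero_mul]
    refine Ex_nonneg hv fun b _ => sum_nonneg fun e _ => sub_nonneg.2 (ind_mono ?_)
    rintro ⟨t, ht, hc⟩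
    exact ⟨t, ht, hc.mono (subset_insert _ _)⟩
  rw [ind_pos hA, one_mul]
  have ho : o ∈ russoS G o n a :=
    mem_russoS.2 ⟨mem_ball_self _ _, by rwa [inter_eq_left.2 ha]⟩
  have hsub : eIn G (russoS G o n a) ⊆ eIn G (ball G o n) :=
    eIn_mono fun x hx => (mem_russoS.1 hx).1
  refine (h _ ho).trans ?_
  have e1 : psi G q (russoS G o n a) o = Ex (eIn G (ball G o n)) (fun _ => q) fun b =>
      ∑ x ∈ russoS G o n a, ind (Conn (b ∩ eIn G (russoS G o n a)) o x) *
        ((G.neighborFinset x \ russoS G o n a).card : ℝ) := by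
    rw [Ex_sum]
    refine sum_congr rfl fun x _ => ?_
    rw [Ex_mul_const, Ex_universe hsub (fun ω => ind (Conn ω o x))]
    rfl
  rw [e1]
  refine Ex_mono hv fun b hb => ?_
  have e2 := russoS_eq (G := G) (o := o) (n := n)
    (splice_inter (eIn G (ball G o n) \ eIn G (russoS G o n a)) a b)
  have := russo_point (G := G) (o := o) (n := n)
    (c := splice (eIn G (ball G o n) \ eIn G (russoS G o n a)) a b) (splice_subset ha hb)
    (d := b ∩ eIn G (russoS G o n a))
    (fun e he => mem_splice.2 (Or.inr ⟨(mem_inter.1 he).1,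
      fun h => (mem_sdiff.1 h).2 (mem_inter.1 he).2⟩)) (by rw [e2]; exact ho)
  rwa [e2] at this

theorem wperc_of_psi {p q c : ℝ} (h0 : 0 ≤ p) (hpq : p < q) (h1 : q ≤ 1) (hc : 0 < c) {o : V}
    (h : ∀ S : Finset V, o ∈ S → c ≤ psi G p S o) : Perc G q o := by
  have hA : 0 < c * (q - p) := mul_pos hc (by linarith)
  refine ⟨c * (q - p) / (1 + c * (q - p)), by positivity, fun n => ?_⟩
  have hmono : Monotone fun ω : Finset (Sym2 V) => ind (∃ b ∈ sph G o n, Conn ω o b) :=
    fun a b hab => ind_mono fun ⟨t, ht, hc⟩ => ⟨t, ht, hc.mono hab⟩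
  obtain ⟨r, hr, hd⟩ := exists_hasDerivAt_eq_slope
    (fun t : ℝ => Ex (eIn G (ball G o n)) (fun _ => t) fun ω => ind (∃ b ∈ sph G o n, Conn ω o b))
    _ hpq (continuous_Ex_const _ _).continuousOn (fun t _ => russo _ _ t)
  have c0 : 0 ≤ r := h0.trans hr.1.le
  have c1 : r ≤ 1 := hr.2.le.trans h1
  have hv : Valid (fun _ : Sym2 V => r) := valid_const c0 c1
  have h2 := wpiv_ge (G := G) (c := c) c0 c1 (o := o)
    (fun S hS => (h S hS).trans (sum_le_sum fun x _ =>
    mul_le_mul_of_nonneg_right (Ex_mono_w (valid_const h0 (hpq.le.trans h1)) hv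
      (fun _ _ => hr.1.le) fun a b hab => ind_mono fun h => h.mono hab) (Nat.cast_nonneg _))) n
  have h3 := h2.trans (sum_le_sum fun e _ => Ex_mono hv fun ω _ =>
    sub_le_sub_left (hmono (erase_subset e ω)) _)
  rw [hd, le_div_iff₀ (by linarith)] at h3
  have h4 : theta G r o n ≤ theta G q o n :=
    Ex_mono_w hv (valid_const (h0.trans hpq.le) h1) (fun _ _ => hr.2.le) hmono
  have h5 : 0 ≤ theta G p o n := Pr_nonneg (valid_const h0 (hpq.le.trans h1)) _
  have h7 : c * (1 - theta G r o n) * (q - p) ≤ theta G q o n - theta G p o n := h3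
  rw [div_le_iff₀ (by positivity)]
  have h8 : c * (q - p) * theta G r o n ≤ c * (q - p) * theta G q o n :=
    mul_le_mul_of_nonneg_left h4 hA.le
  nlinarith

end Vale.Agent.P165
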