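import Vale.Agent.P165.Cheeger

/-! Weighted Cheeger inequality. -/

namespace Vale.Agent.P165

open Finset

variable {V : Type*} [DecidableEq V] {G : SimpleGraph V} [G.LocallyFinite]

theorem wspec_swap (S : Finset V) (u w : V → ℝ) (h0 : ∀ x, 0 ≤ u x) (hw : ∀ x, 0 ≤ w x)
    (hS : ∀ x, x ∉ S → u x = 0) :
    ∑ x ∈ S, ∑ y ∈ G.neighborFinset x, w x * u y ≤
      ∑ y ∈ S, (∑ x ∈ G.neighborFinset y, w x) * u y := by
  have h1 : ∀ x ∈ S, ∑ y ∈ G.neighborFinset x, w x * u y =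
      ∑ y ∈ S, if x ∈ G.neighborFinset y then w x * u y else 0 := by
    intro x _
    rw [← sum_filter]
    symm
    refine sum_subset (fun y hy => ?_) (fun y hy hy' => ?_)
    · have := (mem_filter.mp hy).2
      rw [SimpleGraph.mem_neighborFinset] at this ⊢
      exact this.symm
    · rw [hS y fun hh => hy' ?_, mul_zero]
      refine mem_filter.mpr ⟨hh, ?_⟩
      rw [SimpleGraph.mem_neighborFinset] at hy ⊢
      exact hy.symm
  rw [sum_congr rfl h1, sum_comm]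
  refine sum_le_sum fun y _ => ?_
  rw [← sum_filter, sum_mul]
  exact sum_le_sum_of_subset_of_nonneg (fun x hx => (mem_filter.mp hx).2)
    fun x _ _ => mul_nonneg (hw x) (h0 y)

theorem wspec_pt {t u v : ℝ} (ht : 0 ≤ t) (hu : 1 ≤ u) (hv : 1 ≤ v) (a b : ℝ) :
    2 * t * max (a ^ 2 - b ^ 2) 0 ≤ 2 * t ^ 2 * a ^ 2 + 2 * t ^ 2 * (1 * b ^ 2) +
      v * (u * a ^ 2) + u * (v * b ^ 2) - 2 * ((u * a) * (v * b)) := by
  have h1 : (a - b) ^ 2 ≤ u * v * (a - b) ^ 2 :=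
    le_mul_of_one_le_left (sq_nonneg _) (one_le_mul_of_one_le_of_one_le hu hv)
  rcases le_total (a ^ 2 - b ^ 2) 0 with h | h
  · rw [max_eq_right h]
    nlinarith [sq_nonneg (a - b), sq_nonneg (t * a), sq_nonneg (t * b)]
  · rw [max_eq_left h]
    nlinarith [sq_nonneg ((a - b) - t * (a + b)), sq_nonneg (t * (a - b))]

theorem wspec {D C κ b : ℝ} (hD : 0 < D) (hκ : 0 ≤ κ) (hdeg : ∀ v, (G.degree v : ℝ) ≤ D)
    (h : ∀ A : Finset V, κ * A.card ≤ ∑ x ∈ A, ((G.neighborFinset x \ A).card : ℝ))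
    {w : V → ℝ} (hw : ∀ x, 1 ≤ w x ∧ w x ≤ C)
    (hb : ∀ x, ∑ y ∈ G.neighborFinset x, w y ≤ b * w x) :
    Spec G (b - κ ^ 2 / (8 * D * C ^ 2)) := by
  intro S f
  have hw0 : ∀ x, 0 < w x := fun x => one_pos.trans_le (hw x).1
  let g : V → ℝ := fun x => if x ∈ S then |f x| / w x else 0
  have hg0 : ∀ x, 0 ≤ g x := by
    intro x
    by_cases hx : x ∈ S
    · simp only [g, if_pos hx]
      exact div_nonneg (abs_nonneg _) (hw0 x).le
    · simp only [g, if_neg hx]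
      exact le_rfl
  have hgw : ∀ x ∈ S, w x * g x = |f x| := by
    intro x hx
    simp only [g, if_pos hx]
    rw [mul_div_cancel₀ _ (hw0 x).ne']
  have hgS : ∀ x, x ∉ S → g x ^ 2 = 0 := by
    intro x hx
    simp only [g, if_neg hx]
    norm_num
  have hq : ∑ x ∈ S, ∑ y ∈ G.neighborFinset x ∩ S, f x * f y ≤
      ∑ x ∈ S, ∑ y ∈ G.neighborFinset x, (w x * g x) * (w y * g y) := by
    refine sum_le_sum fun x hx => le_trans (sum_le_sum fun y hy => ?_)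
      (sum_le_sum_of_subset_of_nonneg (inter_subset_left (s₂ := S))
        fun y _ _ => mul_nonneg (mul_nonneg (hw0 x).le (hg0 x)) (mul_nonneg (hw0 y).le (hg0 y)))
    rw [hgw x hx, hgw y (mem_inter.mp hy).2, ← abs_mul]
    exact le_abs_self _
  have hc := coarea h S (fun x => g x ^ 2) (fun x => sq_nonneg _) hgS
  have hR := wspec_swap (G := G) S (fun x => g x ^ 2) (fun _ => 1) (fun x => sq_nonneg _)
    (fun _ => zero_le_one) hgS
  have hR' := wspec_swap (G := G) S (fun x => w x * g x ^ 2) w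
    (fun x => mul_nonneg (hw0 x).le (sq_nonneg _)) (fun x => (hw0 x).le)
    (fun x hx => by rw [hgS x hx, mul_zero])
  have hA : ∑ x ∈ S, (∑ y ∈ G.neighborFinset x, (1 : ℝ)) * g x ^ 2 ≤ D * ∑ x ∈ S, g x ^ 2 := by
    rw [mul_sum]
    refine sum_le_sum fun x _ => mul_le_mul_of_nonneg_right ?_ (sq_nonneg _)
    rw [sum_const, nsmul_eq_mul, mul_one, SimpleGraph.card_neighborFinset_eq_degree]
    exact hdeg x
  have hA' : ∑ x ∈ S, ∑ y ∈ G.neighborFinset x, g x ^ 2 ≤ D * ∑ x ∈ S, g x ^ 2 := by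
    refine le_trans (le_of_eq (sum_congr rfl fun x _ => ?_)) hA
    rw [sum_mul]
    simp only [one_mul]
  have hB : ∑ x ∈ S, (∑ y ∈ G.neighborFinset x, w y) * (w x * g x ^ 2) ≤
      b * ∑ x ∈ S, f x ^ 2 := by
    rw [mul_sum]
    refine sum_le_sum fun x hx => ?_
    refine (mul_le_mul_of_nonneg_right (hb x) (mul_nonneg (hw0 x).le (sq_nonneg _))).trans
      (le_of_eq ?_)
    rw [← sq_abs (f x), ← hgw x hx]
    ring
  have hB' : ∑ x ∈ S, ∑ y ∈ G.neighborFinset x, w y * (w x * g x ^ 2) ≤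
      b * ∑ x ∈ S, f x ^ 2 := by
    refine le_trans (le_of_eq (sum_congr rfl fun x _ => ?_)) hB
    rw [sum_mul]
  have hN : ∑ x ∈ S, f x ^ 2 / C ^ 2 ≤ ∑ x ∈ S, g x ^ 2 := by
    refine sum_le_sum fun x hx => ?_
    have h1 : 0 < C := (hw0 x).trans_le (hw x).2
    rw [div_le_iff₀ (by positivity), ← sq_abs (f x), ← hgw x hx, mul_pow, mul_comm]
    exact mul_le_mul_of_nonneg_left (pow_le_pow_left₀ (hw0 x).le (hw x).2 2) (sq_nonneg _)
  rw [← sum_div] at hN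
  obtain ⟨t, ht⟩ : ∃ t, t = κ / (4 * D) := ⟨_, rfl⟩
  have ht0 : 0 ≤ t := by rw [ht]; positivity
  have hk : κ = 4 * D * t := by rw [ht]; field_simp
  have hP : 2 * t * ∑ x ∈ S, ∑ y ∈ G.neighborFinset x, max (g x ^ 2 - g y ^ 2) 0 ≤
      2 * t ^ 2 * ∑ x ∈ S, ∑ y ∈ G.neighborFinset x, g x ^ 2 +
      2 * t ^ 2 * ∑ x ∈ S, ∑ y ∈ G.neighborFinset x, 1 * g y ^ 2 +
      ∑ x ∈ S, ∑ y ∈ G.neighborFinset x, w y * (w x * g x ^ 2) +
      ∑ x ∈ S, ∑ y ∈ G.neighborFinset x, w x * (w y * g y ^ 2) -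
      2 * ∑ x ∈ S, ∑ y ∈ G.neighborFinset x, (w x * g x) * (w y * g y) := by
    simp only [mul_sum, ← sum_add_distrib, ← sum_sub_distrib]
    exact sum_le_sum fun x _ => sum_le_sum fun y _ => wspec_pt ht0 (hw x).1 (hw y).1 _ _
  have h6 := mul_le_mul_of_nonneg_left hc (show 0 ≤ 2 * t by positivity)
  have h7 := mul_le_mul_of_nonneg_left (hR.trans hA) (show 0 ≤ 2 * t ^ 2 by positivity)
  have h8 := mul_le_mul_of_nonneg_left hA' (show 0 ≤ 2 * t ^ 2 by positivity)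
  have h9 := mul_le_mul_of_nonneg_left hN (show 0 ≤ 2 * D * t ^ 2 by positivity)
  have h10 : κ ^ 2 / (8 * D * C ^ 2) * ∑ x ∈ S, f x ^ 2 =
      2 * D * t ^ 2 * ((∑ x ∈ S, f x ^ 2) / C ^ 2) := by
    rw [hk]
    by_cases hC : C = 0
    · simp [hC]
    · field_simp
      ring
  have h11 := hR'.trans hB
  rw [sub_mul, h10]
  rw [hk] at h6
  nlinarith

end Vale.Agent.P165
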