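import Vale.Agent.P165.Main
import Vale.Agent.P165.Eig
import Vale.Agent.P165.QPow
import Vale.Agent.P165.WSpec
import Vale.Agent.P165.WPhi
import Vale.Agent.P165.WRusso

/-! Assembly for quasi-transitive graphs. -/

namespace Vale.Agent.P165

open Finset Vale.Agent.P151 Vale.Agent.P151G

variable {V : Type*} [DecidableEq V] {G : SimpleGraph V} [G.LocallyFinite]

open Classical in
theorem wmain [Infinite V] (hc : G.Connected)
    (hq : ∃ F : Finset V, ∀ v, ∃ γ : G ≃g G, ∃ u ∈ F, γ u = v) {D C Φ : ℝ} (hC : 1 ≤ C)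
    (hΦ : 0 < Φ) (hdeg : ∀ v, (G.degree v : ℝ) ≤ D)
    (hden : ∀ x z, D / C ≤
      (((G.neighborFinset x).filter fun y => ∃ γ : G ≃g G, γ z = y).card : ℝ))
    (hiso : ∀ A : Finset V, Φ * D * A.card ≤ ∑ x ∈ A, ((G.neighborFinset x \ A).card : ℝ))
    (hD : 32 * C / (Φ ^ 2 / (8 * C ^ 2)) ^ 3 ≤ D) : pc G < pu G := by
  obtain ⟨o⟩ := hc.nonempty
  obtain ⟨ε, hε⟩ : ∃ ε, ε = Φ ^ 2 / (8 * C ^ 2) := ⟨_, rfl⟩
  rw [← hε] at hD
  have hC0 : 0 < C := by linarith
  have e0 : 0 < ε := by rw [hε]; positivity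
  have hD0 : 0 < D := lt_of_lt_of_le (by positivity) hD
  have h1 : Φ ≤ 1 := by
    have a := hiso {o}
    have b : ((G.neighborFinset o \ {o}).card : ℝ) ≤ D := by
      refine le_trans ?_ (hdeg o)
      rw [← G.card_neighborFinset_eq_degree]
      exact_mod_cast card_le_card sdiff_subset
    simp only [card_singleton, Nat.cast_one, mul_one, sum_singleton] at a
    nlinarith
  have e1 : ε ≤ 1 := by
    rw [hε, div_le_one (by positivity)]
    nlinarith
  rw [div_le_iff₀ (by positivity)] at hD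
  have e2 : ε ^ 2 ≤ 1 := pow_le_one₀ e0.le e1
  have hT : 32 ≤ ε * D := by
    have : D * ε ^ 3 ≤ ε * D := by
      have := mul_le_mul_of_nonneg_left e2 (mul_pos e0 hD0).le
      nlinarith
    linarith
  haveI : Nonempty V := ⟨o⟩
  obtain ⟨w, a, b, hw, hab, hη, hb⟩ := eig hq hD0 hC hdeg hden (η := ε * D / 4) (by positivity)
  have hs := wspec hD0 (mul_pos hΦ hD0).le hdeg hiso hw fun x => (hab x).2
  have e3 : (Φ * D) ^ 2 / (8 * D * C ^ 2) = ε * D := by rw [hε]; field_simp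
  rw [e3] at hs
  obtain ⟨l, hl'⟩ : ∃ l, l = b - ε * D := ⟨_, rfl⟩
  rw [← hl'] at hs
  have hl : 0 ≤ l := by
    have := hs {o} fun _ => 1
    simp only [mul_one, one_pow, sum_const, nsmul_eq_mul, card_singleton, Nat.cast_one,
      one_mul, sum_singleton] at this
    exact (Nat.cast_nonneg _).trans this
  obtain ⟨T, hT'⟩ : ∃ T, T = ε * D := ⟨_, rfl⟩
  rw [← hT'] at hT hη hl'
  have hle : ∀ s : ℝ, T / 4 ≤ s → 1 / (l + s) ≤ 1 := fun s hs => by
    rw [div_le_one (by linarith)]; linarith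
  have hlt : ∀ s : ℝ, T / 4 ≤ s → 1 / (l + s) * l < 1 := fun s hs => by
    rw [one_div_mul_eq_div, div_lt_one (by linarith)]; linarith
  have hp0 : 0 ≤ 1 / (l + T / 2) := by positivity
  have hp : 1 + 1 / (l + T / 2) * C * (2 * (1 / (l + T / 2)) * D /
      (1 - 1 / (l + T / 2) * l) ^ 2) ≤ 1 / (l + T / 2) * a := by
    have a0 : 0 < l + T / 2 := by linarith
    have T0 : 0 < T := by linarith
    have a1 : 1 - 1 / (l + T / 2) * l = T / 2 / (l + T / 2) := by field_simp; ring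
    have a2 : 1 / (l + T / 2) * C * (2 * (1 / (l + T / 2)) * D /
        (T / 2 / (l + T / 2)) ^ 2) = 8 * C * D / T ^ 2 := by field_simp; ring
    have a3 : 8 * C * D / T ^ 2 ≤ T / 4 / D := by
      rw [hT', div_le_div_iff₀ (by positivity) hD0]
      have := mul_le_mul_of_nonneg_right hD (by positivity : 0 ≤ D ^ 2 / 4)
      nlinarith
    have a4 : T / 4 / D ≤ T / 4 / (l + T / 2) :=
      div_le_div_of_nonneg_left (by positivity) a0 (by linarith)
    have a5 : 1 + T / 4 / (l + T / 2) = 1 / (l + T / 2) * (l + T / 2 + T / 4) := by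
      field_simp
    have a6 : 1 / (l + T / 2) * (l + T / 2 + T / 4) ≤ 1 / (l + T / 2) * a :=
      mul_le_mul_of_nonneg_left (by linarith) hp0
    rw [a1, a2]
    linarith
  have hpsi := fun S (hS : o ∈ S) => le_psi hp0 (hle _ (by linarith)) hl hs hdeg
    (hlt _ (by linarith)) hw (fun x => (hab x).1) hp S hS
  let q : unitInterval := ⟨1 / (l + T / 3), by positivity, hle _ (by linarith)⟩
  let q' : unitInterval := ⟨1 / (l + T / 4), by positivity, hle _ le_rfl⟩
  have hperc : Perc G (q : ℝ) o := wperc_of_psi hp0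
    (one_div_lt_one_div_of_lt (by linarith) (by linarith)) q.2.2 (by positivity) hpsi
  have h1 : pc G ≤ q := sInf_le (measure_pos_of_perc q o hperc)
  have h2 : q < q' := by
    change 1 / (l + T / 3) < 1 / (l + T / 4)
    exact one_div_lt_one_div_of_lt (by linarith) (by linarith)
  have h3 : q' ≤ pu G := by
    refine le_sInf fun t ht => ?_
    by_contra hn
    have ht' : (t : ℝ) ≤ 1 / (l + T / 4) := le_of_lt (not_le.1 hn)
    exact not_uniq hc hq hl hs t
      ((mul_le_mul_of_nonneg_right ht' hl).trans_lt (hlt _ le_rfl)) ht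
  exact lt_of_le_of_lt h1 (lt_of_lt_of_le h2 h3)

theorem wmain_pow [Infinite V] (hc : G.Connected)
    (hq : ∃ F : Finset V, ∀ v, ∃ γ : G ≃g G, ∃ u ∈ F, γ u = v)
    (hh : ∃ h : ℝ, 0 < h ∧ ∀ A : Finset V, A.Nonempty →
      h * A.card ≤ ({y | y ∉ A ∧ ∃ x ∈ A, G.Adj x y}.ncard : ℝ)) :
    ∃ k0 : ℕ, ∀ k, k0 ≤ k → pc (powG G k) < pu (powG G k) := by
  classical
  obtain ⟨h, h0, hh⟩ := hh
  obtain ⟨C, Φ, hC, hΦ, hM⟩ := qpow hc hq h0 hh
  obtain ⟨k0, hk0⟩ := hM (32 * C / (Φ ^ 2 / (8 * C ^ 2)) ^ 3)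
  refine ⟨k0 + 1, fun k hk => ?_⟩
  obtain ⟨D, hD, hdeg, hden, hiso⟩ := hk0 k (by omega)
  have hmem : ∀ x y, (powG G k).Adj x y ↔ y ∈ (ball G x k).erase x := fun x y => by
    rw [mem_erase, mem_ball_iff hc]
    exact ⟨fun a => ⟨a.1.symm, a.2⟩, fun a => ⟨a.1.symm, a.2⟩⟩
  letI : (powG G k).LocallyFinite := fun x =>
    Fintype.ofFinset ((ball G x k).erase x) fun y => (hmem x y).symm
  have hN : ∀ x, (powG G k).neighborFinset x = (ball G x k).erase x := fun x => by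
    ext y; rw [SimpleGraph.mem_neighborFinset, hmem]
  refine wmain (pow_connected hc (by omega)) ?_ hC hΦ (fun v => ?_) (fun x z => ?_)
    (fun A => ?_) hD
  · obtain ⟨F, hF⟩ := hq
    refine ⟨F, fun v => ?_⟩
    obtain ⟨γ, u, hu, hγ⟩ := hF v
    obtain ⟨γ', hγ'⟩ := pow_aut hc k γ
    exact ⟨γ', u, hu, (hγ' u).trans hγ⟩
  · refine le_trans ?_ (hdeg v)
    rw [← SimpleGraph.card_neighborFinset_eq_degree, hN]
    exact_mod_cast card_le_card (erase_subset _ _)
  · refine (hden x z).trans ?_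
    rw [hN]
    refine Nat.cast_le.2 (card_le_card fun y hy => ?_)
    rw [mem_filter] at hy ⊢
    obtain ⟨γ, hγ⟩ := hy.2
    obtain ⟨γ', hγ'⟩ := pow_aut hc k γ
    exact ⟨hy.1, γ', (hγ' z).trans hγ⟩
  · refine (hiso A).trans (le_of_eq (sum_congr rfl fun x hx => ?_))
    rw [hN]
    congr 2
    ext y
    simp only [mem_sdiff, mem_erase]
    exact ⟨fun c => ⟨⟨fun e => c.2 (e ▸ hx), c.1⟩, c.2⟩, fun c => ⟨c.1.2, c.2⟩⟩

end Vale.Agent.P165
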